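import Vale.Agent.P354Z.Est

/-!
The mean over a sphere.
-/

open scoped ContDiff
open Set Filter Topology MeasureTheory

namespace Vale.Agent.P354DR

open Vale.Agent.P354XG Vale.Agent.P354XR Vale.Agent.P354XD Vale.Agent.P354XI
open Vale.Agent.P354Z (An)

/-- The shell over the sphere (t, r) lies in O. -/
def Sph (O : Set E6) (t r : ℝ) : Prop := ∀ ξ : ℂ × ℂ, An (t, r, ξ) → (t, r, ξ) ∈ O

def KA : Set (ℂ × ℂ) := {ξ | An (0, 0, ξ)}

theorem nq_sm : ContDiff ℝ ∞ nq := by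
  have e : ∀ φ : ℂ →L[ℝ] ℝ, ContDiff ℝ ∞ (fun x : E6 => φ x.2.2.1) ∧
      ContDiff ℝ ∞ fun x : E6 => φ x.2.2.2 := fun φ =>
    ⟨φ.contDiff.comp (by fun_prop), φ.contDiff.comp (by fun_prop)⟩
  exact (((e Complex.reCLM).1.mul (e Complex.reCLM).1).add
    ((e Complex.imCLM).1.mul (e Complex.imCLM).1)).add
    (((e Complex.reCLM).2.mul (e Complex.reCLM).2).add
      ((e Complex.imCLM).2.mul (e Complex.imCLM).2))

theorem An_cl : IsClosed {x | An x} :=
  (isClosed_le continuous_const nq_sm.continuous).inter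
    (isClosed_le nq_sm.continuous continuous_const)

theorem An.le {x : E6} (h : An x) : ‖x.2.2.1‖ ≤ 2 ∧ ‖x.2.2.2‖ ≤ 2 := by
  have := h.2
  simp only [nq, Complex.normSq_eq_norm_sq] at this
  constructor <;> nlinarith [sq_nonneg ‖x.2.2.1‖, sq_nonneg ‖x.2.2.2‖]

theorem KA_cpt : IsCompact KA :=
  (isCompact_closedBall (0 : ℂ × ℂ) 2).of_isClosed_subset
    (An_cl.preimage (f := fun ξ : ℂ × ℂ => ((0, 0, ξ) : E6)) (by fun_prop)) fun ξ h => by
      simpa [Prod.norm_def] using An.le h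

variable {O : Set E6} {t r : ℝ} {u v : Sm (on O)}

theorem Sph.ev (hO : IsOpen O) (s : Sph O t r) : ∀ᶠ τ in 𝓝 t, Sph O τ r :=
  KA_cpt.eventually_forall_of_forall_eventually (P := fun τ ξ => ((τ, r, ξ) : E6) ∈ O) fun ξ h =>
    (hO.preimage (f := fun z : ℝ × ℂ × ℂ => ((z.1, r, z.2) : E6)) (by fun_prop)).mem_nhds (s ξ h)

/-- The support is in the shell. -/
def Su (u : Sm (on O)) : Prop := ∀ x, ¬An x → fv u x = 0

theorem Su.near (h : Su u) {x : E6} (hx : ¬An x) : fv u =ᶠ[𝓝 x] fun _ => 0 :=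
  (An_cl.isOpen_compl.eventually_mem hx).mono h

theorem Su.mul (h : Su u) (a : Sm (on O)) : Su (a * u) := fun x hx => by
  rw [fv_mul, h x hx, mul_zero]

theorem Su.pd (hO : IsOpen O) (h : Su u) (w : E6) : Su (pd w u) := fun x hx => by
  by_cases e : x ∈ O
  · rw [fv_pd hO w u e, (h.near hx).fderiv_eq]; simp
  · exact fv_out _ e

/-- The integral over the fibre. -/
noncomputable def iv (u : Sm (on O)) (r t : ℝ) : ℂ := ∫ ξ : ℂ × ℂ, fv u (t, r, ξ)

section
variable (hO : IsOpen O) (s : Sph O t r) (h : Su u)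
include hO s h

theorem Su.sm (ξ : ℂ × ℂ) : ContDiffAt ℝ ∞ (fv u) (t, r, ξ) := by
  by_cases e : An (t, r, ξ)
  · exact fv_sm hO u (s ξ e)
  · exact contDiffAt_const.congr_of_eventuallyEq (h.near e)

theorem Su.fd (w : E6) (ξ : ℂ × ℂ) : fv (P354XG.pd w u) (t, r, ξ) = fderiv ℝ (fv u) (t, r, ξ) w := by
  by_cases e : An (t, r, ξ)
  · exact fv_pd hO w u (s ξ e)
  · rw [h.pd hO w _ e, (h.near e).fderiv_eq]; simp

theorem Su.cont : Continuous fun ξ : ℂ × ℂ => fv u (t, r, ξ) :=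
  continuous_iff_continuousAt.2 fun ξ =>
    (h.sm hO s ξ).continuousAt.comp (f := fun ξ : ℂ × ℂ => ((t, r, ξ) : E6)) (by fun_prop)

theorem Su.int : Integrable fun ξ : ℂ × ℂ => fv u (t, r, ξ) :=
  (h.cont hO s).integrable_of_hasCompactSupport (HasCompactSupport.intro KA_cpt fun _ e => h _ e)

theorem iv_pd (w : ℂ × ℂ) : iv (pd (0, 0, w) u) r t = 0 := by
  have d : ∀ ξ : ℂ × ℂ, HasFDerivAt (fun ξ : ℂ × ℂ => fv u (t, r, ξ)) _ ξ := fun ξ =>
    ((h.sm hO s ξ).differentiableAt (by simp)).hasFDerivAt.comp ξ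
      ((hasFDerivAt_const t ξ).prodMk ((hasFDerivAt_const r ξ).prodMk (hasFDerivAt_id ξ)))
  have e : ∀ ξ : ℂ × ℂ, fv (pd (0, 0, w) u) (t, r, ξ) =
      fderiv ℝ (fun ξ : ℂ × ℂ => fv u (t, r, ξ)) ξ w := fun ξ => by
    rw [h.fd hO s, (d ξ).fderiv]; rfl
  have i2 := (h.pd hO (0, 0, w)).int hO s
  simp only [iv, e] at i2 ⊢
  have : (volume : Measure (ℂ × ℂ)).IsAddHaarMeasure := Measure.prod.instIsAddHaarMeasure _ _
  simpa using integral_mul_fderiv_eq_neg_fderiv_mul_of_integrable (μ := volume)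
    (f := fun _ => (1 : ℂ)) (g := fun ξ : ℂ × ℂ => fv u (t, r, ξ)) (v := w) (by simp)
    (by simpa using i2) (by simpa using h.int hO s) (fun _ _ => differentiableAt_const _)
    fun ξ _ => (d ξ).differentiableAt

theorem iv_der : HasDerivAt (iv u r) (iv (pd (1, 0, 0, 0) u) r t) t := by
  have h' := h.pd hO (1, 0, 0, 0)
  obtain ⟨C, hC⟩ := KA_cpt.exists_bound_of_continuousOn (h'.cont hO s).continuousOn
  have b := KA_cpt.eventually_forall_of_forall_eventually (x₀ := t)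
    (P := fun τ ξ => ‖fv (pd (1, 0, 0, 0) u) (τ, r, ξ)‖ < C + 1) fun ξ e =>
      ((h'.sm hO s ξ).continuousAt.comp (f := fun z : ℝ × ℂ × ℂ => ((z.1, r, z.2) : E6))
        (x := (t, ξ)) (by fun_prop)).norm.eventually_lt continuousAt_const
        ((hC ξ e).trans_lt (lt_add_one C))
  refine (hasDerivAt_integral_of_dominated_loc_of_deriv_le (F := fun τ ξ => fv u (τ, r, ξ))
    (F' := fun τ ξ => fv (pd (1, 0, 0, 0) u) (τ, r, ξ)) (bound := KA.indicator fun _ => C + 1)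
    ((s.ev hO).and b) ((s.ev hO).mono fun _ e => (h.cont hO e).aestronglyMeasurable) (h.int hO s)
    (h'.cont hO s).aestronglyMeasurable (Eventually.of_forall fun ξ τ e => ?_)
    ((integrableOn_const KA_cpt.measure_lt_top.ne).integrable_indicator KA_cpt.measurableSet)
    (Eventually.of_forall fun ξ τ e => ?_)).2
  · by_cases k : ξ ∈ KA
    · rw [indicator_of_mem k]; exact (e.2 ξ k).le
    · rw [indicator_of_notMem k, h' (τ, r, ξ) k, norm_zero]
  · rw [h.fd hO e.1]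
    exact ((h.sm hO e.1 ξ).differentiableAt (by simp)).hasFDerivAt.comp_hasDerivAt τ
      ((hasDerivAt_id τ).prodMk (hasDerivAt_const τ (r, ξ)))

theorem iv_add (h' : Su v) : iv (u + v) r t = iv u r t + iv v r t := by
  simp only [iv, fv_add, integral_add (h.int hO s) (h'.int hO s)]

omit hO s h in
theorem iv_alg (c : ℂ) : iv (algebraMap ℂ _ c * u) r t = c * iv u r t := by
  simp only [iv, ← Algebra.smul_def, fv_smul, integral_const_mul]

theorem iv_sub (h' : Su v) : iv (u - v) r t = iv u r t - iv v r t := by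
  rw [show u - v = u + algebraMap ℂ _ (-1) * v by simp [sub_eq_add_neg], iv_add hO s h (h'.mul _),
    iv_alg]
  ring

theorem iv_d (i : Fin 6) (hi : 2 ≤ i) : iv ((hp (on O)).d i u) r t = 0 := by
  have e : ∃ a b, v1 i = (0, 0, a) ∧ v2 i = (0, 0, b) := by
    fin_cases i
    exacts [absurd hi (by decide), absurd hi (by decide), ⟨_, _, rfl, rfl⟩, ⟨_, _, rfl, rfl⟩,
      ⟨_, _, rfl, rfl⟩, ⟨_, _, rfl, rfl⟩]
  obtain ⟨a, b, e1, e2⟩ := e
  rw [hp_d, iv_add hO s ((h.pd hO _).mul _) ((h.pd hO _).mul _), iv_alg, iv_alg, e1, e2,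
    iv_pd hO s h, iv_pd hO s h, mul_zero, mul_zero, add_zero]

omit s in
theorem Su.d (i : Fin 6) : Su ((hp (on O)).d i u) := fun x e => by
  rw [hp_d, fv_add, (h.pd hO _).mul _ x e, (h.pd hO _).mul _ x e, add_zero]

theorem iv_PQ (k : (hp (on O)).Is) :
    iv ((hp (on O)).P u) r t = 0 ∧ iv ((hp (on O)).Q u) r t = 0 := by
  have e : ∀ i j i' j', 2 ≤ i → 2 ≤ i' → i ≠ j → i' ≠ j' →
      iv ((hp (on O)).z j * (hp (on O)).d i u - (hp (on O)).z j' * (hp (on O)).d i' u) r t = 0 :=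
    fun i j i' j' a b c d => by
      have := iv_sub hO s ((h.mul ((hp (on O)).z j)).d hO i) ((h.mul ((hp (on O)).z j')).d hO i')
      rw [iv_d hO s (h.mul _) i a, iv_d hO s (h.mul _) i' b] at this
      simpa only [D_mul, k.dz, if_neg c, if_neg d, mul_zero, add_zero, sub_zero] using this
  exact ⟨Hp.P_ap _ u ▸ e 3 4 2 5 (by decide) (by decide) (by decide) (by decide),
    Hp.Q_ap _ u ▸ e 5 2 4 3 (by decide) (by decide) (by decide) (by decide)⟩

end

/-! ### The weight -/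

noncomputable def cf (y : ℝ) : ℝ := expNegInvGlue (y - 1 / 2) * expNegInvGlue (3 / 2 - y)

theorem cf_sm : ContDiff ℝ ∞ cf :=
  (expNegInvGlue.contDiff.comp (by fun_prop)).mul (expNegInvGlue.contDiff.comp (by fun_prop))

theorem cf_nn (y : ℝ) : 0 ≤ cf y := mul_nonneg (expNegInvGlue.nonneg _) (expNegInvGlue.nonneg _)

theorem cf_out {x : E6} (h : ¬An x) : cf (nq x) = 0 := by
  rcases not_and_or.1 h with e | e
  · rw [cf, expNegInvGlue.zero_of_nonpos (by linarith [not_le.1 e]), zero_mul]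
  · rw [cf, expNegInvGlue.zero_of_nonpos (x := _ - nq x) (by linarith [not_le.1 e]), mul_zero]

theorem cf_cont : Continuous fun ξ : ℂ × ℂ => cf (nq (0, 0, ξ)) :=
  cf_sm.continuous.comp (nq_sm.continuous.comp (by fun_prop))

theorem cf_int : Integrable fun ξ : ℂ × ℂ => cf (nq (0, 0, ξ)) :=
  cf_cont.integrable_of_hasCompactSupport (HasCompactSupport.intro KA_cpt fun _ e => cf_out e)

noncomputable def c0 : ℝ := ∫ ξ : ℂ × ℂ, cf (nq (0, 0, ξ))

theorem c0_pos : 0 < c0 :=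
  cf_cont.integral_pos_of_hasCompactSupport_nonneg_nonzero (x := (1, 0))
    (HasCompactSupport.intro KA_cpt fun _ e => cf_out e) (fun _ => cf_nn _)
    (mul_pos (expNegInvGlue.pos_of_pos (by norm_num [nq]))
      (expNegInvGlue.pos_of_pos (by norm_num [nq]))).ne'

/-- Functions of the norm of the spinor. -/
noncomputable def fq (O : Set E6) (f : ℝ → ℝ) : Sm (on O) := gm (on O) fun p => (f (nq p.2) : ℂ)

theorem fv_fq {f : ℝ → ℝ} (h : ContDiff ℝ ∞ f) {x : E6} (hx : x ∈ O) : fv (fq O f) x = f (nq x) :=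
  (fv_in _ hx).trans (ev_on (rs_gm (G := on O) (f := fun p => (f (nq p.2) : ℂ))
    (Eventually.of_forall fun _ =>
      (Complex.ofRealCLM.contDiff.comp (h.comp nq_sm)).contDiffAt)) hx)

theorem pd_fq (hO : IsOpen O) {f : ℝ → ℝ} (h : ContDiff ℝ ∞ f) (w : E6) :
    pd w (fq O f) = fq O (deriv f) * pd w (hp (on O)).N := ext_fv hO fun x hx => by
  have n := (nq_sm.differentiable (by simp) x).hasFDerivAt
  rw [fv_mul, fv_pd hO _ _ hx, fv_pd hO _ _ hx, fv_fq (contDiff_infty_iff_deriv.1 h).2 hx,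
    EventuallyEq.fderiv_eq (f := fun y => (f (nq y) : ℂ))
      ((hO.eventually_mem hx).mono fun y hy => fv_fq h hy),
    EventuallyEq.fderiv_eq (f := fun y => (nq y : ℂ))
      ((hO.eventually_mem hx).mono fun y hy => (fv_in _ hy).trans (ev_on rs_N hy)),
    show fderiv ℝ (fun y => (nq y : ℂ)) x = _ from (Complex.ofRealCLM.hasFDerivAt.comp x n).fderiv,
    show fderiv ℝ (fun y => (f (nq y) : ℂ)) x = _ from (Complex.ofRealCLM.hasFDerivAt.comp x
      ((h.differentiable (by simp) _).hasDerivAt.comp_hasFDerivAt x n)).fderiv]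
  simp

theorem su_cf : Su (fq O cf) := fun x e => by
  by_cases hx : x ∈ O
  · rw [fv_fq cf_sm hx, cf_out e, Complex.ofReal_zero]
  · exact fv_out _ hx

/-- The mean. -/
noncomputable def av (u : Sm (on O)) (r t : ℝ) : ℂ := (c0 : ℂ)⁻¹ * iv (u * fq O cf) r t

section
variable (hO : IsOpen O) (k : (hp (on O)).Is) (s : Sph O t r)
include hO k

theorem D_cf : (hp (on O)).d 0 (fq O cf) = 0 ∧ (hp (on O)).P (fq O cf) = 0 ∧
    (hp (on O)).Q (fq O cf) = 0 := by
  have e : ∀ i, (hp (on O)).d i (fq O cf) = fq O (deriv cf) * (hp (on O)).d i (hp (on O)).N :=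
    fun i => by simp only [hp_d, pd_fq hO cf_sm]; ring
  simp [Hp.P_ap, Hp.Q_ap, e, Hp.N, k.dz]
  constructor <;> ring

include s

theorem av_der (u : Sm (on O)) : HasDerivAt (av u r) (av ((hp (on O)).d 0 u) r t) t := by
  have e : ∀ f, (hp (on O)).d 0 f = pd (1, 0, 0, 0) f := fun f => by simp [hp_d, d1, d2, v1]
  have := (iv_der hO s (su_cf.mul u)).const_mul (c0 : ℂ)⁻¹
  rwa [← e, D_mul, (D_cf hO k).1, mul_zero, zero_add, mul_comm (fq O cf)] at this

/-- The mean of a function which is close to a constant up to a divergence. -/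
theorem av_le {f : Sm (on O)} {c : ℂ} {C : ℝ} (h : ∀ ξ, An (t, r, ξ) →
    ‖fv (f - algebraMap ℂ _ c - (hp (on O)).P u - (hp (on O)).Q v) (t, r, ξ)‖ ≤ C) :
    ‖av f r t - c‖ ≤ C := by
  have c0' : (c0 : ℂ) ≠ 0 := Complex.ofReal_ne_zero.2 c0_pos.ne'
  have v1 : ∀ ξ, fv (fq O cf) (t, r, ξ) = cf (nq (0, 0, ξ)) := fun ξ => by
    by_cases e : An (t, r, ξ)
    · exact fv_fq cf_sm (s ξ e)
    · rw [su_cf _ e, cf_out (x := (0, 0, ξ)) e, Complex.ofReal_zero]
  have i1 : iv (fq O cf) r t = c0 := by simp only [iv, v1, integral_complex_ofReal, c0]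
  have p := (iv_PQ hO s (su_cf.mul u) k).1
  have q := (iv_PQ hO s (su_cf.mul v) k).2
  rw [D_mul, (D_cf hO k).2.1, mul_zero, zero_add, mul_comm] at p
  rw [D_mul, (D_cf hO k).2.2, mul_zero, zero_add, mul_comm] at q
  have e : av f r t - c =
      av (f - algebraMap ℂ _ c - (hp (on O)).P u - (hp (on O)).Q v) r t := by
    rw [av, av, sub_mul _ ((hp (on O)).Q v), iv_sub hO s (su_cf.mul _) (su_cf.mul _),
      sub_mul _ ((hp (on O)).P u), iv_sub hO s (su_cf.mul _) (su_cf.mul _), sub_mul,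
      iv_sub hO s (su_cf.mul _) (su_cf.mul _), p, q, iv_alg, i1]
    field_simp
    ring
  rw [e, av, norm_mul, norm_inv, Complex.norm_of_nonneg c0_pos.le, inv_mul_le_iff₀ c0_pos, c0,
    ← integral_mul_const]
  refine norm_integral_le_of_norm_le (cf_int.mul_const C) (Eventually.of_forall fun ξ => ?_)
  rw [fv_mul, v1, norm_mul, Complex.norm_of_nonneg (cf_nn _), mul_comm]
  by_cases e : An (t, r, ξ)
  · exact mul_le_mul_of_nonneg_left (h ξ e) (cf_nn _)
  · rw [cf_out (x := (0, 0, ξ)) e, zero_mul, zero_mul]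

end

end Vale.Agent.P354DR
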