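import Vale.Agent.P354DR.Cls
import Vale.Agent.P354Z.Est
import Vale.Agent.P354XR.Raw
import Vale.Agent.P354YA.Rix

/-!
The matrices of a null frame in the chart, homomorphisms and products.
-/

set_option linter.unusedSimpArgs false

namespace Vale.Agent.P354DR

open Vale.Agent.P354XG Vale.Agent.P354XF Vale.Agent.P354XR Vale.Agent.P354XD
open Vale.Agent.P354XG.Geo (hf two_hf hat)
open Vale.Agent.P354Z (cm dat f4 sc)
open Vale.Agent.P354YA (HHom)

section alg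
variable {A : Type} [CommRing A] [Algebra ℂ A] {K : Hp A}

theorem cm_V (h : K.Is) (p : Pm A) (e1 e2 e3 e4 e5 e6 : A) :
    cm K p ((kk K p).V e1 e2 e3 e4 e5 e6) = ![e1, e2, e3, e4, e5, e6] := by
  obtain ⟨-, -, -, -, -, -, -, -, -, -, -, -, a, b, c, d⟩ := h.tab
  have n := h.hN
  simp only [Hp.N] at n
  rw [kk_V]
  funext μ
  fin_cases μ <;> simp [cm, KC.V_ap, Hp.kc, h.dz, a, b, c, d]
  · linear_combination (e3 - e2 * p.j1 * (ii A * (2 * K.z 2 * K.z 3 * K.Ni))) * n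
  · linear_combination (e4 + e2 * p.j1 * (ii A * (2 * K.z 4 * K.z 5 * K.Ni))) * n
  · linear_combination (e5 + e2 * p.j1 * (ii A * ((K.z 2 * K.z 4 - K.z 3 * K.z 5) * K.Ni))) * n
  · linear_combination (e6 - e2 * p.j1 * (ii A * ((K.z 2 * K.z 4 - K.z 3 * K.z 5) * K.Ni))) * n

theorem V_ch (k : KC A) (U : Fin 6 → A) (f : A) :
    k.V (U 0) (U 1) (U 2) (U 3) (U 4) (U 5) f = ∑ μ, U μ * ch k μ f := by
  simp [KC.V_ap, ch, Fin.sum_univ_six]

theorem act_cm (h : K.Is) (p : Pm A) (g : Fin 4 → Fin 4 → A) (Γ : Fin 4 → Fin 4 → Fin 4 → A)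
    (u : Op A) (f : A) :
    (K.geo g Γ).act u f = ∑ μ, cm K p ((K.geo g Γ).act u) μ * ch (kk K p) μ f := by
  obtain ⟨e1, e2, e3, e4, e5, e6, e⟩ : ∃ e1 e2 e3 e4 e5 e6,
      (K.geo g Γ).act u = (kk K p).V e1 e2 e3 e4 e5 e6 := by
    refine ⟨∑ a, u.X a * c1 K p a, ∑ a, u.X a * K.om a, ∑ a, u.X a * c3 K p a,
      ∑ a, u.X a * c4 K p a, u.a - (∑ a, u.X a * K.om a) * p.j1 * (ii A * K.kc.x),
      u.b + (∑ a, u.X a * K.om a) * p.j1 * (ii A * K.kc.x), Derivation.ext fun f => ?_⟩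
    rw [kk_V, KC.V_ap, Geo.act_apply]
    simp only [Hp.geo, Hp.L_ap, c1, c3, c4, Fin.sum_univ_four, Hp.kc]
    ring
  rw [e, cm_V h, ← V_ch]
  rfl

/-- The components of the frame in the chart. -/
noncomputable def em (K : Hp A) (p : Pm A) (G : GHP A) : M6 A :=
  ![cm K p G.th, cm K p G.tp, cm K p G.et, cm K p G.ep, Pi.single 4 1, Pi.single 5 1]

theorem em_kerr (h : K.Is) (p : Pm A) : em K p (kk K p).kerr = Kr.e (kk K p) := by
  simp only [em, KC.kerr, KC.th, KC.tp, KC.et, KC.ep, cm_V h, Kr.e]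
  rfl

/-- The components of an operator in the frame. -/
noncomputable def bv (S : Geo A) (F : Fr A) (u : Op A) : Fin 6 → A :=
  ![-S.dot u.X F.n, -S.dot u.X F.l, S.dot u.X F.mb, S.dot u.X F.m,
    u.a - (-S.dot u.X F.n * (hat S F.l F.n F.m F.mb F.l).a +
      -S.dot u.X F.l * (hat S F.l F.n F.m F.mb F.n).a +
      S.dot u.X F.mb * (hat S F.l F.n F.m F.mb F.m).a +
      S.dot u.X F.m * (hat S F.l F.n F.m F.mb F.mb).a),
    u.b - (-S.dot u.X F.n * (hat S F.l F.n F.m F.mb F.l).b +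
      -S.dot u.X F.l * (hat S F.l F.n F.m F.mb F.n).b +
      S.dot u.X F.mb * (hat S F.l F.n F.m F.mb F.m).b +
      S.dot u.X F.m * (hat S F.l F.n F.m F.mb F.mb).b)]

theorem act_bv {S : Geo A} (h : S.Is) {F : Fr A} (w : F.WN S) (u : Op A) (f : A) :
    S.act u f = vf (F.ghp S) (bv S F u) f := by
  have x : ∀ X, (hat S F.l F.n F.m F.mb X).X = X := fun _ => rfl
  have e := fun a => congrFun (w.toNull.span h u.X) a
  simp only [Pi.add_apply, Pi.smul_apply, smul_eq_mul] at e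
  simp only [vf_six, bv, Fr.ghp, Geo.ghp, Geo.mk', Geo.act_apply, x, Matrix.cons_val,
    Fin.sum_univ_four]
  linear_combination S.L 0 f * e 0 + S.L 1 f * e 1 + S.L 2 f * e 2 + S.L 3 f * e 3

/-- The components of the chart in the frame. -/
noncomputable def bm (K : Hp A) (p : Pm A) (S : Geo A) (F : Fr A) : M6 A :=
  ![bv S F ⟨K.prj (K.d 0), 0, 0⟩,
    bv S F ⟨K.prj (kk K p).R, p.j1 * (ii A * K.kc.x), -(p.j1 * (ii A * K.kc.x))⟩,
    bv S F ⟨K.prj K.P, 0, 0⟩, bv S F ⟨K.prj K.Q, 0, 0⟩, Pi.single 4 1, Pi.single 5 1]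

theorem fit_fr (h : K.Is) {p : Pm A} (q : p.Is K) {g : Fin 4 → Fin 4 → A}
    {Γ : Fin 4 → Fin 4 → Fin 4 → A} (s : (K.geo g Γ).Is) {F : Fr A} (w : F.WN (K.geo g Γ)) :
    Fit (kk K p) (F.ghp (K.geo g Γ)) (em K p (F.ghp (K.geo g Γ))) (bm K p (K.geo g Γ) F) where
  is := kk_is h q
  free := kk_free h p
  H := rfl
  Hb := rfl
  he a f := by
    fin_cases a
    exacts [act_cm h p g Γ _ f, act_cm h p g Γ _ f, act_cm h p g Γ _ f, act_cm h p g Γ _ f,
      by simp [em, ch, fr, Pi.single_apply]; rfl, by simp [em, ch, fr, Pi.single_apply]; rfl]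
  hb μ f := by
    have k : ∀ (D : P354XG.Der A) e1 e2 e3 e4 e5 e6, (∀ f, D f = K.kc.V e1 e2 e3 e4 e5 e6 f) →
        D f = vf (F.ghp (K.geo g Γ)) (bv (K.geo g Γ) F ⟨K.prj D, e5, e6⟩) f :=
      fun D e1 e2 e3 e4 e5 e6 e => by
        rw [← act_bv s w, Derivation.ext e, h.act_prj]
    fin_cases μ
    · exact k (K.d 0) 1 0 0 0 0 0 fun f => by simp [KC.V_ap, Hp.kc]
    · exact k (kk K p).R (-p.h1) 1 (-(p.j1 * (ii A * K.kc.s))) (p.j1 * (ii A * K.kc.sb)) _ _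
        fun f => by rw [kk_R, KC.F2, KC.V_ap, KC.V_ap]; ring
    · exact k K.P 0 0 1 0 0 0 fun f => by simp [KC.V_ap, Hp.kc]
    · exact k K.Q 0 0 0 1 0 0 fun f => by simp [KC.V_ap, Hp.kc]
    · simp [bm, ch, vf_six]; rfl
    · simp [bm, ch, vf_six]; rfl

/-- The differences to Kerr. -/
noncomputable def dd (K : Hp A) (p : Pm A) (G : GHP A) (i : (Fin 4 × Fin 6) ⊕ Fin 13) : A :=
  dat K p G i - dat K p (kk K p).kerr i

theorem em_dat (p : Pm A) (a μ : Fin 6) :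
    (∃ c, ∀ G, em K p G a μ = c) ∨ ∃ i, ∀ G, em K p G a μ = dat K p G i := by
  fin_cases a
  exacts [.inr ⟨.inl (0, μ), fun _ => rfl⟩, .inr ⟨.inl (1, μ), fun _ => rfl⟩,
    .inr ⟨.inl (2, μ), fun _ => rfl⟩, .inr ⟨.inl (3, μ), fun _ => rfl⟩, .inl ⟨_, fun _ => rfl⟩,
    .inl ⟨_, fun _ => rfl⟩]

theorem em_sub (h : K.Is) (p : Pm A) (G : GHP A) (a μ : Fin 6) :
    em K p G a μ - Kr.e (kk K p) a μ = 0 ∨ ∃ i, em K p G a μ - Kr.e (kk K p) a μ = dd K p G i := by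
  rw [← em_kerr h]
  rcases em_dat p a μ with ⟨c, e⟩ | ⟨i, e⟩
  · exact .inl (by rw [e, e, sub_self])
  · exact .inr ⟨i, by rw [e, e, dd]⟩

theorem sp_sub (p : Pm A) (G : GHP A) (i : Fin 13) :
    sp G i - sp (kk K p).kerr i = dd K p G (.inr i) := rfl

variable {B : Type} [CommRing B] [Algebra ℂ B] {K' : Hp B} {φ : A →ₐ[ℂ] B}

/-- The image of the parameters. -/
def pmap (φ : A →ₐ[ℂ] B) (p : Pm A) : Pm B := ⟨φ p.a, φ p.M, φ p.sg, φ p.h1, φ p.j1⟩

theorem hom_kc (h : HHom K K' φ) : φ K.kc.x = K'.kc.x ∧ φ K.kc.s = K'.kc.s ∧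
    φ K.kc.sb = K'.kc.sb := by
  simp only [Hp.kc, map_mul, map_sub, map_ofNat, h.z, h.Ni, and_self]

theorem pmap_is (h : HHom K K' φ) {p : Pm A} (q : p.Is K) : (pmap φ p).Is K' where
  ca := (h.c _).symm.trans (congrArg φ q.ca)
  cM := (h.c _).symm.trans (congrArg φ q.cM)
  ch := (h.c _).symm.trans (congrArg φ q.ch)
  cj := (h.c _).symm.trans (congrArg φ q.cj)
  da i := (h.d _ _).symm.trans (by rw [q.da, map_zero])
  dM i := (h.d _ _).symm.trans (by rw [q.dM, map_zero])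
  dh i e := (h.d _ _).symm.trans (by rw [q.dh i e, map_zero])
  dj i e := (h.d _ _).symm.trans (by rw [q.dj i e, map_zero])
  hg := by simpa only [map_mul, map_add, map_one, h.z, hom_kc h, pmap] using congrArg φ q.hg

theorem dat_hom (h : HHom K K' φ) (p : Pm A) {G : GHP A} {G' : GHP B} (m : GHP.Hom G G' φ)
    (i : (Fin 4 × Fin 6) ⊕ Fin 13) : φ (dat K p G i) = dat K' (pmap φ p) G' i := by
  rcases i with ⟨a, μ⟩ | i
  · have e : ∀ j, φ (f4 G a (K.z j)) = f4 G' a (K'.z j) := fun j => by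
      rw [← h.z]
      fin_cases a
      exacts [m.th _, m.tp _, m.et _, m.ep _]
    fin_cases μ <;>
      simp only [dat, cm, Sum.elim_inl, Fin.reduceFinMk, Matrix.cons_val, map_add, map_sub, map_mul,
        e, h.z, h.Ni, hom_kc h, P354YA.map_ii, pmap]
  · fin_cases i
    exacts [m.ka, m.si, m.rh, m.ta, m.ka', m.si', m.rh', m.ta', m.P0, m.P1, m.P2, m.P3, m.P4]

theorem kerr_hom (h : HHom K K' φ) (p : Pm A) :
    GHP.Hom (kk K p).kerr (kk K' (pmap φ p)).kerr φ := by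
  obtain ⟨a1, a2, a3⟩ := hom_kc h
  have v : ∀ e1 e2 e3 e4 e5 e6 f, φ ((kk K p).V e1 e2 e3 e4 e5 e6 f) =
      (kk K' (pmap φ p)).V (φ e1) (φ e2) (φ e3) (φ e4) (φ e5) (φ e6) (φ f) := by
    intro e1 e2 e3 e4 e5 e6 f
    rw [kk_V, kk_V, KC.V_ap, KC.V_ap]
    simp only [map_add, map_sub, map_mul, a1, a2, a3, P354YA.map_ii, pmap]
    simp only [Hp.kc, h.d, h.P, h.Q, h.H, h.Bf]
  have b1 : φ (kk K p).x = (kk K' (pmap φ p)).x := a1
  have b2 : φ (kk K p).s = (kk K' (pmap φ p)).s := a2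
  have b3 : φ (kk K p).sb = (kk K' (pmap φ p)).sb := a3
  have b4 : φ (kk K p).r = (kk K' (pmap φ p)).r := h.z 1
  have b5 : φ (kk K p).N = (kk K' (pmap φ p)).N := h.N
  have b6 : φ (kk K p).Ni = (kk K' (pmap φ p)).Ni := h.Ni
  have b7 : φ (kk K p).sg = (kk K' (pmap φ p)).sg := rfl
  have b8 : φ (kk K p).a = (kk K' (pmap φ p)).a := rfl
  have b9 : φ (kk K p).M = (kk K' (pmap φ p)).M := rfl
  constructor
  case c => exact h.c
  case H => exact h.H
  case Hb => exact h.Bf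
  all_goals
    simp only [KC.kerr, KC.th, KC.tp, KC.et, KC.ep, v, KC.z, KC.zb, KC.ee, KC.De, KC.W, KC.rh,
      KC.rh2, KC.ta, KC.ta2, KC.P2, map_add, map_sub, map_mul, map_neg, map_ofNat, map_zero,
      P354YA.map_ii, b1, b2, b3, b4, b5, b6, b7, b8, b9, implies_true]

theorem dd_hom (h : HHom K K' φ) (p : Pm A) {G : GHP A} {G' : GHP B} (m : GHP.Hom G G' φ)
    (i : (Fin 4 × Fin 6) ⊕ Fin 13) : φ (dd K p G i) = dd K' (pmap φ p) G' i := by
  rw [dd, dd, map_sub, dat_hom h p m, dat_hom h p (kerr_hom h p)]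

theorem Om_hom (h : HHom K K' φ) (f : A) : φ (Om K 2 f) = Om K' 2 (φ f) := by
  simp [Om, h.z, h.d, P354YA.map_ii, P354YA.map_hf]

end alg

section pi
variable {J : Type} {A : J → Type} [∀ j, CommRing (A j)] [∀ j, Algebra ℂ (A j)]
  {K : ∀ j, Hp (A j)} {p : ∀ j, Pm (A j)}

theorem ch_pi (μ : Fin 6) (f : ∀ j, A j) (j : J) :
    ch (kk (piK K) (piP p)) μ f j = ch (kk (K j) (p j)) μ (f j) := by fin_cases μ <;> rfl

/-- The product of matrices. -/
def piM (e : ∀ j, M6 (A j)) : M6 (∀ j, A j) := fun a μ j => e j a μ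

theorem fit_pi {G : ∀ j, GHP (A j)} {e b : ∀ j, M6 (A j)} (hK : ∀ j, (K j).Is)
    (hp : ∀ j, (p j).Is (K j)) (h : ∀ j, Fit (kk (K j) (p j)) (G j) (e j) (b j)) :
    Fit (kk (piK K) (piP p)) (piG G) (piM e) (piM b) where
  is := kk_is (piK_is hK) (piP_is hp)
  free := kk_free (piK_is hK) _
  H := Derivation.ext fun f => funext fun j => DFunLike.congr_fun (h j).H (f j)
  Hb := Derivation.ext fun f => funext fun j => DFunLike.congr_fun (h j).Hb (f j)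
  he a f := funext fun j => by
    simp only [Finset.sum_apply, Pi.mul_apply, fr_piG, ch_pi]
    exact (h j).he a (f j)
  hb μ f := funext fun j => by
    simp only [vf_ap, Finset.sum_apply, Pi.mul_apply, fr_piG, ch_pi]
    exact ((h j).hb μ (f j)).trans (vf_ap _ _ _)

theorem dd_pi (G : ∀ j, GHP (A j)) (i : (Fin 4 × Fin 6) ⊕ Fin 13) (j : J) :
    dd (piK K) (piP p) (piG G) i j = dd (K j) (p j) (G j) i := by
  rcases i with ⟨a, μ⟩ | i
  · fin_cases a <;> fin_cases μ <;> rfl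
  · fin_cases i <;> rfl

theorem em_pi (G : ∀ j, GHP (A j)) :
    em (piK K) (piP p) (piG G) = piM fun j => em (K j) (p j) (G j) := by
  funext a μ j
  fin_cases a <;> fin_cases μ <;> rfl

end pi

end Vale.Agent.P354DR
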