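import Vale.Agent.P354DR.Fit

/-!
Bounded, small and quadratically small elements; the charges are conserved up to quadratic terms.
-/

set_option linter.unusedSimpArgs false

namespace Vale.Agent.P354DR

open Vale.Agent.P354XG Vale.Agent.P354XF Vale.Agent.P354XR
open Vale.Agent.P354XG.Geo (hf two_hf)

variable {A : Type*} [CommRing A] [Algebra ℂ A]

/-- B are the bounded elements, I the small ones, J the quadratically small ones. -/
structure Cl (A : Type*) [CommRing A] [Algebra ℂ A] where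
  B : Subalgebra ℂ A
  I : AddSubgroup A
  J : AddSubgroup A
  le : ∀ a ∈ I, a ∈ B
  mul : ∀ b ∈ B, ∀ a ∈ I, b * a ∈ I
  mul2 : ∀ b ∈ B, ∀ a ∈ J, b * a ∈ J
  sq : ∀ a ∈ I, ∀ b ∈ I, a * b ∈ J
  inv : ∀ a ∈ I, ∀ u, (1 + a) * u = 1 → u ∈ B

namespace Cl

variable (N : Cl A) (Φ : P354XG.Der A)

/-- a is close to the bounded invariant element b, to the first order along Φ. -/
def Cg (a b : A) : Prop := b ∈ N.B ∧ Φ b = 0 ∧ a - b ∈ N.I ∧ Φ a ∈ N.I

/-- x is a derivative along Φ up to quadratic terms. -/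
def Ex (x : A) : Prop := ∃ u, x - Φ u ∈ N.J

variable {N Φ} {a b a' b' : A}

theorem Cg.refl (h : b ∈ N.B) (e : Φ b = 0) : N.Cg Φ b b :=
  ⟨h, e, by rw [sub_self]; exact zero_mem _, by rw [e]; exact zero_mem _⟩
theorem Cg.mem (h : N.Cg Φ a b) : a ∈ N.B := by
  simpa only [sub_add_cancel] using add_mem (N.le _ h.2.2.1) h.1
theorem Cg.add (h : N.Cg Φ a b) (h' : N.Cg Φ a' b') : N.Cg Φ (a + a') (b + b') :=
  ⟨add_mem h.1 h'.1, by rw [D_add, h.2.1, h'.2.1, add_zero],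
    by rw [add_sub_add_comm]; exact add_mem h.2.2.1 h'.2.2.1,
    by rw [D_add]; exact add_mem h.2.2.2 h'.2.2.2⟩
theorem Cg.neg (h : N.Cg Φ a b) : N.Cg Φ (-a) (-b) :=
  ⟨neg_mem h.1, by rw [D_neg, h.2.1, neg_zero],
    by rw [neg_sub_neg, ← neg_sub]; exact neg_mem h.2.2.1, by rw [D_neg]; exact neg_mem h.2.2.2⟩
theorem Cg.sub (h : N.Cg Φ a b) (h' : N.Cg Φ a' b') : N.Cg Φ (a - a') (b - b') := by
  simpa only [sub_eq_add_neg] using h.add h'.neg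
theorem Cg.mul (h : N.Cg Φ a b) (h' : N.Cg Φ a' b') : N.Cg Φ (a * a') (b * b') :=
  ⟨mul_mem h.1 h'.1, by rw [D_mul, h.2.1, h'.2.1, mul_zero, mul_zero, add_zero], by
    rw [show a * a' - b * b' = a' * (a - b) + b * (a' - b') by ring]
    exact add_mem (N.mul _ h'.mem _ h.2.2.1) (N.mul _ h.1 _ h'.2.2.1), by
    rw [D_mul]; exact add_mem (N.mul _ h.mem _ h'.2.2.2) (N.mul _ h'.mem _ h.2.2.2)⟩
theorem cg_alg (z : ℂ) : N.Cg Φ (algebraMap ℂ A z) (algebraMap ℂ A z) :=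
  .refl (algebraMap_mem _ z) (D_alg _ _)
theorem cg_zero : N.Cg Φ 0 0 := .refl (zero_mem _) (D_zero _)
theorem cg_one : N.Cg Φ 1 1 := .refl (one_mem _) (D_one _)
theorem Cg.sum {ι : Type*} (s : Finset ι) {f g : ι → A} (h : ∀ i, N.Cg Φ (f i) (g i)) :
    N.Cg Φ (∑ i ∈ s, f i) (∑ i ∈ s, g i) := by
  induction s using Finset.cons_induction with
  | empty => exact cg_zero
  | cons i s hi ih => simpa only [Finset.sum_cons] using (h i).add ih
theorem Cg.prod {ι : Type*} (s : Finset ι) {f g : ι → A} (h : ∀ i, N.Cg Φ (f i) (g i)) :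
    N.Cg Φ (∏ i ∈ s, f i) (∏ i ∈ s, g i) := by
  induction s using Finset.cons_induction with
  | empty => exact cg_one
  | cons i s hi ih => simpa only [Finset.prod_cons] using (h i).mul ih

theorem Cg.to0 (h : N.Cg Φ a b) : N.Cg 0 a b := ⟨h.1, rfl, h.2.2.1, zero_mem _⟩

theorem inv_mem (h : a - b ∈ N.I) {u : A} (e : a * u = 1) (e' : b * b' = 1)
    (hb' : b' ∈ N.B) : u ∈ N.B := by
  have := N.inv _ (N.mul _ hb' _ h) (u * b) (by
    linear_combination (b * b') * e + (1 - u * b) * e')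
  rw [show u = u * b * b' by linear_combination -u * e']
  exact mul_mem this hb'

/-- The inverse of an element which is close to a unit. -/
theorem Cg.inv (h : N.Cg Φ a b) {u : A} (e : a * u = 1) (e' : b * b' = 1) (hb' : b' ∈ N.B) :
    N.Cg Φ u b' := by
  have hu := inv_mem h.2.2.1 e e' hb'
  refine ⟨hb', by rw [KC.D_inv Φ (show b' * b = 1 by rw [mul_comm, e']), h.2.1]; ring, ?_, ?_⟩
  · rw [show u - b' = -(u * b') * (a - b) by linear_combination b' * e - u * e']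
    exact N.mul _ (neg_mem (mul_mem hu hb')) _ h.2.2.1
  · rw [KC.D_inv Φ (show u * a = 1 by rw [mul_comm, e])]
    exact neg_mem (N.mul _ (mul_mem hu hu) _ h.2.2.2)

theorem Cg.det {ι : Type} [Fintype ι] [DecidableEq ι] {e e' : Matrix ι ι A}
    (h : ∀ i j, N.Cg Φ (e i j) (e' i j)) : N.Cg Φ e.det e'.det := by
  simp only [Matrix.det_apply']
  refine Cg.sum _ fun σ => Cg.mul ?_ (Cg.prod _ fun i => h _ _)
  simpa only [map_intCast] using cg_alg (N := N) (Φ := Φ) (Equiv.Perm.sign σ : ℤ)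

/-- The inverse of a matrix which is close to an invertible matrix. -/
theorem Cg.minv {ι : Type} [Fintype ι] [DecidableEq ι] {e e' b b' : Matrix ι ι A}
    (h : ∀ i j, N.Cg Φ (e i j) (e' i j)) (hb : b * e = 1) (hb' : b' * e' = 1)
    (m : ∀ i j, b' i j ∈ N.B) (i j : ι) : N.Cg Φ (b i j) (b' i j) := by
  have k : ∀ {e b : Matrix ι ι A}, b * e = 1 → e.det * b.det = 1 ∧
      ∀ i j, b i j = b.det * (e.updateRow j (Pi.single i 1)).det := fun {e b} hb => by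
    have d : e.det * b.det = 1 := by rw [mul_comm, ← Matrix.det_mul, hb, Matrix.det_one]
    refine ⟨d, fun i j => ?_⟩
    have t : e.adjugate = e.det • b := by
      rw [← one_mul e.adjugate, ← hb, mul_assoc, Matrix.mul_adjugate, Matrix.mul_smul, mul_one]
    rw [← Matrix.adjugate_apply, t, Matrix.smul_apply, smul_eq_mul]
    linear_combination -b i j * d
  have mb : b'.det ∈ N.B := by
    rw [Matrix.det_apply']
    exact sum_mem fun σ _ => mul_mem (intCast_mem _ _) (prod_mem fun i _ => m _ _)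
  rw [(k hb).2, (k hb').2]
  refine ((Cg.det h).inv (k hb).1 (k hb').1 mb).mul (Cg.det fun a c => ?_)
  simp only [Matrix.updateRow_apply, Pi.single_apply]
  split_ifs
  exacts [cg_one, cg_zero, h a c]

theorem Ex.add {x y : A} (h : N.Ex Φ x) (h' : N.Ex Φ y) : N.Ex Φ (x + y) := by
  obtain ⟨u, h⟩ := h
  obtain ⟨v, h'⟩ := h'
  exact ⟨u + v, by rw [D_add, add_sub_add_comm]; exact add_mem h h'⟩

theorem Ex.of {x y : A} (h : N.Ex Φ x) (e : y = x) : N.Ex Φ y := e ▸ h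

theorem Ex.sum {ι : Type*} (s : Finset ι) {f : ι → A} (h : ∀ i, N.Ex Φ (f i)) :
    N.Ex Φ (∑ i ∈ s, f i) :=
  Finset.sum_induction f (N.Ex Φ) (fun _ _ => Ex.add)
    ⟨0, by rw [D_zero, sub_self]; exact zero_mem _⟩ fun i _ => h i

theorem Cg.ex (h : N.Cg Φ a b) (h' : N.Cg Φ a' b') : N.Ex Φ (a' * Φ a) :=
  ⟨a' * (a - b), by
    rw [D_mul, D_sub, h.2.1, sub_zero, sub_add_cancel_left]
    exact neg_mem (N.sq _ h.2.2.1 _ h'.2.2.2)⟩

end Cl

/-- The scalars. -/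
def sp (G : GHP A) : Fin 13 → A :=
  ![G.ka, G.si, G.rh, G.ta, G.ka', G.si', G.rh', G.ta', G.P0, G.P1, G.P2, G.P3, G.P4]

/-- G is close to the Kerr structure of the chart k. -/
structure Near (N : Cl A) (k : KC A) (G : GHP A) (e : M6 A) : Prop where
  r : k.r ∈ N.B
  x : k.x ∈ N.B
  s : k.s ∈ N.B
  sb : k.sb ∈ N.B
  n : k.N ∈ N.B
  ni : k.Ni ∈ N.B
  sg : k.sg ∈ N.B
  a : k.a ∈ N.B
  M : k.M ∈ N.B
  Mi : ∃ u ∈ N.B, k.M * u = 1
  e0 : ∀ a μ, e a μ - Kr.e k a μ ∈ N.I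
  e1 : ∀ a μ, k.F2 (e a μ - Kr.e k a μ) ∈ N.I
  s0 : ∀ i, sp G i - sp k.kerr i ∈ N.I
  s1 : ∀ i, k.F2 (sp G i - sp k.kerr i) ∈ N.I

section
variable {N : Cl A} {k : KC A} {T : Tv A} {e b : M6 A} (h : Fit k T.G e b) (n : Near N k T.G e)
include h n

open Cl

theorem cg_gen : N.Cg k.F2 k.r k.r ∧ N.Cg k.F2 k.x k.x ∧ N.Cg k.F2 k.s k.s ∧ N.Cg k.F2 k.sb k.sb ∧
    N.Cg k.F2 k.N k.N ∧ N.Cg k.F2 k.Ni k.Ni ∧ N.Cg k.F2 k.sg k.sg ∧ N.Cg k.F2 k.a k.a ∧
    N.Cg k.F2 k.M k.M ∧ N.Cg k.F2 (ii A) (ii A) ∧ N.Cg k.F2 (hf A) (hf A) ∧ N.Cg k.F2 2 2 :=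
  ⟨.refl n.r h.is.st_r.2, .refl n.x h.is.st_x.2, .refl n.s h.is.st_s.2, .refl n.sb h.is.st_sb.2,
    .refl n.n h.is.st_N.2, .refl n.ni h.is.st_Ni.2, .refl n.sg h.is.st_sg.2,
    .refl n.a h.is.st_a.2, .refl n.M h.is.st_M.2, cg_alg _, cg_alg _,
    .refl (ofNat_mem _ 2) (D_num _ 2)⟩

theorem cg_kerr : (∀ a μ, N.Cg k.F2 (Kr.e k a μ) (Kr.e k a μ)) ∧
    (∀ a μ, N.Cg k.F2 (Kr.b k a μ) (Kr.b k a μ)) ∧
    ∀ i, N.Cg k.F2 (sp k.kerr i) (sp k.kerr i) := by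
  obtain ⟨a1, a2, a3, a4, a5, a6, a7, a8, a9, a10, a11, a12⟩ := cg_gen h n
  have z := cg_zero (N := N) (Φ := k.F2)
  have o := cg_one (N := N) (Φ := k.F2)
  refine ⟨fun a μ => ?_, fun a μ => ?_, fun i => ?_⟩
  any_goals fin_cases a <;> fin_cases μ
  any_goals fin_cases i
  all_goals
    simp only [Kr.e, Kr.b, Kr.y, Kr.yb, sp, KC.kerr, KC.cK, KC.z, KC.zb, KC.ee, KC.De, KC.W, KC.rh,
      KC.rh2, KC.ta, KC.ta2, KC.P2, Fin.reduceFinMk, Matrix.cons_val, Pi.add_apply, Pi.smul_apply,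
      smul_eq_mul, Pi.single_apply, Fin.reduceEq, if_true, if_false]
    repeat' first | assumption | apply Cg.neg | apply Cg.mul | apply Cg.add | apply Cg.sub

theorem cg_e (a μ : Fin 6) : N.Cg k.F2 (e a μ) (Kr.e k a μ) := by
  have := (cg_kerr h n).1 a μ
  exact ⟨this.1, this.2.1, n.e0 a μ, by simpa only [D_sub, this.2.1, sub_zero] using n.e1 a μ⟩

theorem cg_sp (i : Fin 13) : N.Cg k.F2 (sp T.G i) (sp k.kerr i) := by
  have := (cg_kerr h n).2.2 i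
  exact ⟨this.1, this.2.1, n.s0 i, by simpa only [D_sub, this.2.1, sub_zero] using n.s1 i⟩

theorem cg_b (a μ : Fin 6) : N.Cg k.F2 (b a μ) (Kr.b k a μ) :=
  Cg.minv (cg_e h n) h.be (Kr.fit h.is h.free).be (fun i j => ((cg_kerr h n).2.1 i j).1) a μ

theorem cg_d3 (a c d : Fin 6) : N.Cg k.F2 (d3 (b 0) (b 2) (b 3) a c d)
    (d3 (Kr.b k 0) (Kr.b k 2) (Kr.b k 3) a c d) := by
  have := cg_b h n
  simp only [d3, mn]
  repeat' first | apply this | apply Cg.add | apply Cg.sub | apply Cg.mul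

omit h in
theorem sm_sp (i : Fin 13) (e : sp k.kerr i = 0) : sp T.G i ∈ N.I := by
  simpa only [e, sub_zero] using n.s0 i

theorem Pi_mem : T.Pi ∈ N.B := by
  obtain ⟨u, hu, e⟩ := n.Mi
  have := (cg_sp h n 10).mul (Cg.refl (ofNat_mem N.B 3) (D_num _ 3))
  refine inv_mem this.2.2.1 (u := T.Pi) (b' := (KC.tv h.is e).Pi) ?_ ?_ ?_
  · exact (by ring : T.G.P2 * 3 * T.Pi = _).trans T.inv
  · exact (by ring : k.kerr.P2 * 3 * (KC.tv h.is e).Pi = _ * (3 * k.kerr.P2)).trans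
      (KC.tv h.is e).inv
  · exact neg_mem (mul_mem (mul_mem (algebraMap_mem _ _) hu) (pow_mem
      (sub_mem n.r (mul_mem (mul_mem (algebraMap_mem _ _) n.a) n.x)) 3))

/-- The mass. -/
theorem drift1 {w m : A} (hw : w ^ 3 = -T.G.P2) (hm : m ∈ N.B) (hP : k.P m = 0)
    (c : w - m * k.z ∈ N.I) : (∃ u v, k.T (q1 b w) - k.P u - k.Q v ∈ N.J) ∧
    ∃ u, q1 b w - m ^ 2 - k.P u ∈ N.I := by
  obtain ⟨a1, a2, -, -, -, -, a7, a8, -, a10, -⟩ := cg_gen h n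
  have z : m * k.z ∈ N.B := mul_mem hm (a7.mul (a1.add ((a10.mul a8).mul a2))).1
  have wB : w ∈ N.B := by simpa only [sub_add_cancel] using add_mem (N.le _ c) z
  constructor
  · refine ⟨-Fm (fm w) (b 3) (b 0), -Fm (fm w) (b 0) (b 2), ?_⟩
    rw [q1, T_flux h (wts_fm T hw), sub_sub, add_assoc, add_sub_cancel_right]
    obtain ⟨c0, c1, c2, c3⟩ := cur_fm T hw
    have p : 2 * T.Pi * w ^ 2 ∈ N.B := mul_mem (mul_mem (ofNat_mem _ 2) (Pi_mem h n)) (pow_mem wB 2)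
    have q : ∀ i j, sp k.kerr i = 0 → sp k.kerr j = 0 →
        2 * T.Pi * w ^ 2 * (sp T.G i * sp T.G j) ∈ N.J := fun i j hi hj =>
      N.mul2 _ p _ (N.sq _ (sm_sp n i hi) _ (sm_sp n j hj))
    simp only [F3, c0, c1, c2, c3, mul_comm _ (d3 _ _ _ _ _ _)]
    exact add_mem (add_mem (add_mem (N.mul2 _ (cg_d3 h n _ _ _).mem _ (q 4 8 rfl rfl))
      (N.mul2 _ (cg_d3 h n _ _ _).mem _ (q 0 12 rfl rfl)))
      (N.mul2 _ (cg_d3 h n _ _ _).mem _ (neg_mem (q 5 8 rfl rfl))))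
      (N.mul2 _ (cg_d3 h n _ _ _).mem _ (neg_mem (q 1 12 rfl rfl)))
  · refine ⟨m ^ 2 * (ii A * k.a * k.s * k.z), ?_⟩
    rw [sub_sub, ← Kr.q1_val h.is hP]
    have c1 : N.Cg 0 w (m * k.z) := ⟨z, rfl, c, zero_mem _⟩
    have c2 := fun a μ => (cg_b h n a μ).to0
    have c3 := cg_zero (N := N) (Φ := 0)
    refine (?_ : N.Cg 0 _ _).2.2.1
    simp only [q1, Fm, fm, mn, Matrix.cons_val, pow_two]
    repeat' first | assumption | apply c2 | apply Cg.add | apply Cg.sub | apply Cg.mul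

/-- The angular momentum. -/
theorem drift2 : (∃ u v, k.T (q2 k T.G b) - k.P u - k.Q v ∈ N.J) ∧
    ∃ u, q2 k T.G b + 2 * k.a * k.M - k.P u ∈ N.I := by
  obtain ⟨-, a2, a3, a4, -, -, -, -, -, a10, -⟩ := cg_gen h n
  have c2 := cg_b h n
  have s := cg_sp h n
  constructor
  · suffices e : N.Ex k.F2 (F3 (cur T.G (fa T.G (ph k b))) (b 0) (b 2) (b 3)) by
      obtain ⟨u, e⟩ := e
      rw [F2_PQ h.is] at e
      refine ⟨-Fm (fa T.G (ph k b)) (b 3) (b 0) + ii A * (k.s * u - k.Q (k.x * u)),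
        -Fm (fa T.G (ph k b)) (b 0) (b 2) + ii A * (k.P (k.x * u) - k.sb * u), ?_⟩
      rw [q2, T_flux h (wts_ph h), D_add k.P, D_add k.Q]
      exact Set.mem_of_eq_of_mem (by ring) e
    have e1 : ∀ {a a0 : A} (i : Fin 13), N.Cg k.F2 a a0 → N.Ex k.F2 (k.F2 (sp T.G i) * a) :=
      fun i ha => mul_comm _ (k.F2 _) ▸ (s i).ex ha
    have e2 : ∀ {a a0 : A} (c d : Fin 6), N.Cg k.F2 a a0 →
        N.Ex k.F2 (del T.G (ph k b) c d * a) := fun c d ha => by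
      rw [del_ph h, neg_mul_comm, Finset.sum_mul]
      exact Ex.sum _ fun μ => ((cg_e h n c μ).ex ((c2 μ d).mul ha.neg)).of (by ring)
    have e3 : ∀ {a a0 : A} (c : Fin 6) (i0 i1 i2 i3 : Fin 13), N.Cg k.F2 a a0 →
        N.Ex k.F2 ((sp T.G i0 * del T.G (ph k b) c 0 + sp T.G i1 * del T.G (ph k b) c 1 +
          sp T.G i2 * del T.G (ph k b) c 2 + sp T.G i3 * del T.G (ph k b) c 3) * a) :=
      fun c i0 i1 i2 i3 ha => ((((e2 c 0 ((s i0).mul ha)).add (e2 c 1 ((s i1).mul ha))).add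
        (e2 c 2 ((s i2).mul ha))).add (e2 c 3 ((s i3).mul ha))).of (by ring)
    obtain ⟨c0, c1, c2, c3⟩ := cur_fa T (ph k b)
    have d0 := cg_d3 h n 0 1 2
    have d1 := cg_d3 h n 0 1 3
    have d2 := cg_d3 h n 0 2 3
    have d4 := cg_d3 h n 1 2 3
    have := ((((e2 2 4 d0).add (e1 3 d0.neg)).add (e3 1 0 3 1 2 d0.neg)).add
      (((e2 3 4 d1).add (e1 7 d1)).add (e3 0 7 4 6 5 d1))).add
      ((((e1 2 d2).add (e3 3 0 3 1 2 d2)).add (e2 0 4 d2.neg)).add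
      (((e2 1 4 d4.neg).add (e1 6 d4.neg)).add (e3 2 7 4 6 5 d4.neg)))
    simp only [sp, Matrix.cons_val] at this
    simp only [F3, c0, c1, c2, c3, h.vf_ph, cA, cC]
    exact this.of (by ring)
  · refine ⟨k.s * (k.a * k.M * (k.r * k.x - ii A * k.a) * k.z - hf A * ii A * k.W), ?_⟩
    rw [add_sub_assoc, ← neg_sub (k.P _), ← sub_eq_add_neg, ← neg_add_eq_sub (2 * k.a * k.M),
      ← Kr.q2_val h.is h.free]
    have s0 : N.Cg k.F2 T.G.ka k.kerr.ka := s 0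
    have s1 : N.Cg k.F2 T.G.si k.kerr.si := s 1
    have s2 : N.Cg k.F2 T.G.rh k.kerr.rh := s 2
    have s3 : N.Cg k.F2 T.G.ta k.kerr.ta := s 3
    have s4 : N.Cg k.F2 T.G.ka' k.kerr.ka' := s 4
    have s5 : N.Cg k.F2 T.G.si' k.kerr.si' := s 5
    have s6 : N.Cg k.F2 T.G.rh' k.kerr.rh' := s 6
    have s7 : N.Cg k.F2 T.G.ta' k.kerr.ta' := s 7
    refine (?_ : N.Cg k.F2 _ _).2.2.1
    simp only [q2, Fm, fa, cA, cC, ph, mn, Matrix.cons_val]
    repeat' first | assumption | apply c2 | apply Cg.add | apply Cg.sub | apply Cg.mul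

end

end Vale.Agent.P354DR
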