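import Vale.Agent.P354DR.Form

/-!
The frame of G in the chart, the two charge densities, their time derivatives and their values on
Kerr.
-/

set_option linter.unusedSimpArgs false

namespace Vale.Agent.P354DR

open Vale.Agent.P354XG Vale.Agent.P354XF Vale.Agent.P354XR
open Vale.Agent.P354XG.Geo (hf two_hf)

variable {A : Type*} [CommRing A] [Algebra ℂ A]

/-- The fields of the chart. -/
def ch (k : KC A) : Fin 6 → P354XG.Der A := ![k.T, k.R, k.P, k.Q, k.H, k.B]

abbrev M6 (A : Type*) := Matrix (Fin 6) (Fin 6) A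

/-- e are the components of the frame of G in the chart, b those of the chart in the frame. -/
structure Fit (k : KC A) (G : GHP A) (e b : M6 A) : Prop where
  is : k.Is
  free : k.Free
  H : G.H = k.H
  Hb : G.Hb = k.B
  he : ∀ a f, fr G a f = ∑ μ, e a μ * ch k μ f
  hb : ∀ μ f, ch k μ f = vf G (b μ) f

theorem ch_free {k : KC A} (h : k.Free) {U : Fin 6 → A} (e : ∀ f, ∑ μ, U μ * ch k μ f = 0) :
    U = 0 := by
  obtain ⟨a0, a1, a2, a3, a4, a5⟩ := h (U 0) (U 1) (U 2) (U 3) (U 4) (U 5) fun f => by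
    simpa [KC.V_ap, ch, Fin.sum_univ_six] using e f
  funext μ
  fin_cases μ
  exacts [a0, a1, a2, a3, a4, a5]

theorem F2_ch {k : KC A} (h : k.Is) (μ : Fin 6) (f : A) : k.F2 (ch k μ f) = ch k μ (k.F2 f) := by
  fin_cases μ
  exacts [(h.T_F2 f).symm, h.F2_R f, h.F2_P f, h.F2_Q f, h.F2_H f, h.F2_B f]

/-- The components of twice the axial field. -/
noncomputable def ph (k : KC A) (b : M6 A) (e : Fin 6) : A :=
  ii A * (k.s * b 2 e - k.sb * b 3 e - k.x * b 4 e + k.x * b 5 e)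

/-- The two densities. -/
noncomputable def q1 (b : M6 A) (w : A) : A := Fm (fm w) (b 2) (b 3)
noncomputable def q2 (k : KC A) (G : GHP A) (b : M6 A) : A := Fm (fa G (ph k b)) (b 2) (b 3)

theorem F2_PQ {k : KC A} (h : k.Is) (u : A) : k.F2 u =
    k.P (ii A * (k.s * u - k.Q (k.x * u))) + k.Q (ii A * (k.P (k.x * u) - k.sb * u)) := by
  have e := h.P_Q (k.x * u)
  simp only [D_mul, D_sub, D_ii, h.P_s, h.Q_sb, KC.F2, KC.V_ap]
  simp only [D_mul, h.H_x, h.B_x] at e ⊢
  linear_combination ii A * e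

namespace Fit
variable {k : KC A} {G : GHP A} {e b : M6 A} (h : Fit k G e b)
include h

theorem vf_e (U : Fin 6 → A) (f : A) : vf G U f = ∑ μ, Matrix.vecMul U e μ * ch k μ f := by
  simp only [vf_ap, h.he, Matrix.vecMul, dotProduct, Finset.mul_sum, Finset.sum_mul, mul_assoc]
  exact Finset.sum_comm

theorem be : b * e = 1 := by
  ext μ ν
  have := ch_free h.free (U := Matrix.vecMul (b μ) e - Pi.single μ 1) fun f => by
    simp only [Pi.sub_apply, sub_mul, Finset.sum_sub_distrib, ← h.vf_e, ← h.hb]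
    simp [Pi.single_apply]
  have := congrFun (sub_eq_zero.1 this) ν
  rw [Pi.single_apply] at this
  rw [Matrix.one_apply]
  exact this.trans (if_congr eq_comm rfl rfl)

theorem eb : e * b = 1 := mul_eq_one_comm.1 h.be

theorem vfree {U : Fin 6 → A} (u : ∀ f, vf G U f = 0) : U = 0 := by
  have := ch_free h.free fun f => (h.vf_e U f).symm.trans (u f)
  rw [← Matrix.vecMul_one U, ← h.eb, ← Matrix.vecMul_vecMul, this, Matrix.zero_vecMul]

theorem vext {U V : Fin 6 → A} (u : ∀ f, vf G U f = vf G V f) : U = V :=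
  sub_eq_zero.1 (h.vfree fun f => by
    simp only [vf_ap, Pi.sub_apply, sub_mul, Finset.sum_sub_distrib] at u ⊢
    rw [u, sub_self])

theorem b4 : b 4 = Pi.single 4 1 := h.vext fun f => by
  rw [← h.hb]; simp [vf_six, ch, h.H]

theorem b5 : b 5 = Pi.single 5 1 := h.vext fun f => by
  rw [← h.hb]; simp [vf_six, ch, h.Hb]

theorem vf_ph (f : A) : vf G (ph k b) f = k.F2 f := by
  have e2 : k.P f = _ := h.hb 2 f
  have e3 : k.Q f = _ := h.hb 3 f
  have e4 : k.H f = _ := h.hb 4 f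
  have e5 : k.B f = _ := h.hb 5 f
  rw [KC.F2, KC.V_ap, e2, e3, e4, e5]
  simp only [vf_six, ph]
  ring

end Fit

section
variable {k : KC A} {T : Tv A} {e b : M6 A} (h : Fit k T.G e b)
include h

theorem del_ph (a c : Fin 6) : del T.G (ph k b) a c = -∑ μ, b μ c * k.F2 (e a μ) := by
  have s : ∀ f, vf T.G (Pi.single a 1) f = fr T.G a f := fun f => by simp [vf_ap, Pi.single_apply]
  refine congrFun (h.vext (V := fun c => -∑ μ, b μ c * k.F2 (e a μ)) fun f => ?_) c
  rw [del, ← vf_br, s, s, h.vf_ph, h.vf_ph, h.he, h.he, map_sum, vf_ap]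
  simp only [D_mul, F2_ch h.is, Finset.sum_add_distrib, neg_mul, Finset.sum_neg_distrib,
    Finset.sum_mul]
  rw [Finset.sum_comm]
  simp only [h.hb _ f, vf_ap, Finset.sum_mul]
  simp only [mul_assoc, mul_comm (fr T.G _ f)]
  ring

theorem wts_ph : Wts T.G (fa T.G (ph k b)) := by
  have s : ∀ a f, vf T.G (Pi.single a 1) f = fr T.G a f := fun a f => by
    simp [vf_ap, Pi.single_apply]
  refine wts_fa T (h.vfree fun f => ?_) (h.vfree fun f => ?_) <;>
    rw [del, ← vf_br, s, s, h.vf_ph, h.vf_ph]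
  · exact sub_eq_zero.2 (by simpa [fr, h.H] using (h.is.F2_H f).symm)
  · exact sub_eq_zero.2 (by simpa [fr, h.Hb] using (h.is.F2_B f).symm)

/-- The time derivative of the flux through the spheres. -/
theorem T_flux {f : Fin 3 → A} (w : Wts T.G f) : k.T (Fm f (b 2) (b 3)) =
    F3 (cur T.G f) (b 0) (b 2) (b 3) + k.P (-Fm f (b 3) (b 0)) + k.Q (-Fm f (b 0) (b 2)) := by
  have e0 : ∀ f, vf T.G (b 0) f = k.T f := fun f => (h.hb 0 f).symm
  have e2 : ∀ f, vf T.G (b 2) f = k.P f := fun f => (h.hb 2 f).symm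
  have e3 : ∀ f, vf T.G (b 3) f = k.Q f := fun f => (h.hb 3 f).symm
  have c1 : br T.G (b 0) (b 2) = 0 := h.vfree fun f => by
    rw [← vf_br, e0, e2, e2, e0, h.is.P_T, sub_self]
  have c2 : br T.G (b 3) (b 0) = 0 := h.vfree fun f => by
    rw [← vf_br, e0, e3, e3, e0, h.is.Q_T, sub_self]
  have c3 : br T.G (b 2) (b 3) = Pi.single 4 1 - Pi.single 5 1 := h.vext fun f => by
    rw [← vf_br, e2, e3, e3, e2, h.is.P_Q]
    simp [vf_six, h.H, h.Hb]
    ring
  have := cartan w (b 0) (b 2) (b 3)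
  rw [c1, c2, c3, e0, e2, e3] at this
  simp only [D_neg, ← this]
  simp [Fm, mn]
  ring

end

/-! ### Kerr -/

namespace Kr
variable (k : KC A)

/-- The frame of Kerr in the chart and the chart in the frame. -/
noncomputable def e : M6 A :=
  ![![2 * k.N * k.sg * k.W, k.N * k.sg * k.De, ii A * k.a * k.N * k.sg * k.s,
      -(ii A * k.a * k.N * k.sg * k.sb), -(k.N * (k.ee + ii A * k.a * k.x * k.sg)),
      -(k.N * (k.ee - ii A * k.a * k.x * k.sg))],
    ![0, -k.Ni, 0, 0, ii A * k.a * k.x * k.sg * k.Ni, -(ii A * k.a * k.x * k.sg * k.Ni)],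
    ![ii A * k.a * k.s * k.zb, 0, 0, k.zb, -(k.a * k.a * k.x * k.sg * k.s * k.zb),
      ii A * k.a * k.r * k.sg * k.s * k.zb],
    ![-(ii A * k.a * k.sb * k.z), 0, k.z, 0, -(ii A * k.a * k.r * k.sg * k.sb * k.z),
      -(k.a * k.a * k.x * k.sg * k.sb * k.z)], Pi.single 4 1, Pi.single 5 1]

noncomputable def y : A := k.r - ii A * k.a * k.x
noncomputable def yb : A := k.r + ii A * k.a * k.x

noncomputable def b : M6 A :=
  ![k.cK 0, ![0, -k.N, 0, 0, ii A * k.a * k.x * k.sg, -(ii A * k.a * k.x * k.sg)],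
    (ii A * k.a * k.sb) • k.cK 0 +
      ![0, 0, 0, y k, ii A * k.a * k.r * k.sg * k.sb, k.a * k.a * k.x * k.sg * k.sb],
    -(ii A * k.a * k.s) • k.cK 0 +
      ![0, 0, yb k, 0, k.a * k.a * k.x * k.sg * k.s, -(ii A * k.a * k.r * k.sg * k.s)],
    Pi.single 4 1, Pi.single 5 1]

variable {k} (h : k.Is)
include h

theorem zy : k.z * y k = 1 := h.z_ze
theorem zyb : k.zb * yb k = 1 := by
  have := h.z_ze
  simp only [KC.z, KC.zb, yb] at this ⊢
  linear_combination this

theorem fit (hF : k.Free) : Fit k k.kerr (e k) (b k) where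
  is := h
  free := hF
  H := rfl
  Hb := rfl
  he a f := by
    fin_cases a <;>
      simp [fr, e, ch, KC.kerr, KC.th, KC.tp, KC.et, KC.ep, KC.V_ap, Fin.sum_univ_six]
  hb μ f := by
    have t : vf k.kerr (k.cK 0) f = k.T f := (vf_ap _ _ _).trans (h.cK_eq 0 f)
    have l : ∀ (s : A) (U V : Fin 6 → A), vf k.kerr (s • U + V) f =
        s * vf k.kerr U f + vf k.kerr V f := fun s U V => by
      simp only [vf_six, Pi.add_apply, Pi.smul_apply, smul_eq_mul]; ring
    fin_cases μ <;> simp only [b, ch, Fin.reduceFinMk, Matrix.cons_val, l, t]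
    all_goals simp [vf_six, KC.kerr, KC.tp, KC.et, KC.ep, KC.V_ap]
    · linear_combination -(k.R f - ii A * k.a * k.x * k.sg * (k.H f - k.B f)) * h.hN
    · linear_combination (ii A * k.a * k.sb * k.T f - k.P f + ii A * k.a * k.r * k.sg * k.sb * k.H f +
        k.a * k.a * k.x * k.sg * k.sb * k.B f) * zy h
    · linear_combination (-(ii A * k.a * k.s * k.T f) - k.Q f + k.a * k.a * k.x * k.sg * k.s * k.H f -
        ii A * k.a * k.r * k.sg * k.s * k.B f) * zyb h

/-- A form on P, Q. -/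
theorem Fm_PQ (f : Fin 3 → A) : Fm f (b k 2) (b k 3) = f 1 * k.W +
    hf A * ii A * k.a * (f 0 * k.sb * yb k * k.Ni + f 2 * k.s * y k * k.De * k.sg * k.N) := by
  have i := ii_sq (A := A)
  have t := two_hf (A := A)
  simp only [Fm, mn, b, KC.cK, Matrix.cons_val, Pi.add_apply, Pi.smul_apply, smul_eq_mul]
  have e : y k * yb k = k.W - k.a * k.a * (k.s * k.sb) := by
    rw [h.hs, y, yb, KC.W]; linear_combination -(k.a * k.a * k.x * k.x) * i
  linear_combination f 1 * e + f 1 * k.a * k.a * k.s * k.sb * t -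
    f 1 * hf A * k.a * k.a * k.s * k.sb * (k.z * y k + k.zb * yb k) * i +
    f 1 * hf A * k.a * k.a * k.s * k.sb * (zy h + zyb h)

theorem P_z : k.P k.z = -(ii A * k.a * k.sb * k.z * k.z) := by
  rw [KC.D_inv k.P (zy h), y]
  simp only [D_sub, D_mul, D_ii, h.P_r, h.P_a, h.P_x]
  ring

theorem q1_val {m : A} (hm : k.P m = 0) :
    q1 (b k) (m * k.z) = m ^ 2 + k.P (m ^ 2 * (ii A * k.a * k.s * k.z)) := by
  have i := ii_sq (A := A)
  have e := zy h
  simp only [q1, Fm_PQ h, fm, Matrix.cons_val, D_mul, D_sq, D_ii, hm, h.P_a, h.P_s, P_z h, KC.W]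
  rw [y] at e
  linear_combination m ^ 2 * (1 + k.z * (k.r + ii A * k.a * k.x) -
    2 * ii A * k.a * k.x * k.z + 2 * ii A * k.a * k.x * k.z) * e + m ^ 2 * k.a * k.a * k.z * k.z *
    (k.s * k.sb + k.x * k.x) * i - m ^ 2 * k.a * k.a * k.z * k.z * h.hs

theorem ph_eq (hF : k.Free) : ph k (b k) = (2 : A) • k.cK 1 := (fit h hF).vext fun f => by
  have t : vf k.kerr (k.cK 1) f = hf A * k.F2 f := (vf_ap _ _ _).trans (h.cK_eq 1 f)
  have l : vf k.kerr ((2 : A) • k.cK 1) f = 2 * vf k.kerr (k.cK 1) f := by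
    simp only [vf_six, Pi.smul_apply, smul_eq_mul]; ring
  rw [(fit h hF).vf_ph, l, t]
  linear_combination -k.F2 f * two_hf (A := A)

theorem q2_val (hF : k.Free) : q2 k k.kerr (b k) = -(2 * k.a * k.M) +
    k.P (k.s * (k.a * k.M * (k.r * k.x - ii A * k.a) * k.z - hf A * ii A * k.W)) := by
  have i := ii_sq (A := A)
  have t := two_hf (A := A)
  have e := zy h
  have e' := zyb h
  have a0 : cA k.kerr ((2 : A) • k.cK 1) = -(ii A * k.s * k.N * k.De * k.sg) := by
    simp only [cA, KC.kerr, KC.cK, KC.ta, KC.rh, KC.z, KC.zb, KC.W, Matrix.cons_val, Pi.smul_apply,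
      smul_eq_mul]
    grind [h.hs, h.hg]
  have a1 : ((2 : A) • k.cK 1) 4 = -(k.a * k.s * k.sb * (k.M * k.z * k.z + k.z) + ii A * k.x) := by
    simp only [KC.cK, Matrix.cons_val, Pi.smul_apply, smul_eq_mul]
    linear_combination -(k.a * k.s * k.sb * (k.M * k.z * k.z + k.z) + ii A * k.x) * t
  have a2 : cC k.kerr ((2 : A) • k.cK 1) = -(ii A * k.sb * k.Ni * k.z * yb k) := by
    simp only [cC, KC.kerr, KC.cK, KC.ta2, KC.rh2, KC.W, Matrix.cons_val, Pi.smul_apply,
      smul_eq_mul, y, yb] at e ⊢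
    grind [h.hs]
  simp only [q2, Fm_PQ h, fa, ph_eq h hF, Matrix.cons_val, a0, a1, a2, D_mul, D_sub, D_add, D_ii,
    P354XD.Hp.D_hf, h.P_a, h.P_s, h.P_M, h.P_r, h.P_x, P_z h, KC.W]
  have z : k.z = k.sg * yb k := rfl
  have := h.hs
  have := h.hN
  have := h.hg
  simp only [y, yb, KC.De] at *
  grind

end Kr

end Vale.Agent.P354DR
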