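import Vale.Agent.P354XR.Mod

/-!
Self dual two forms in a transverse GHP frame and their exterior derivatives.
-/

set_option linter.unusedSimpArgs false

namespace Vale.Agent.P354DR

open Vale.Agent.P354XG Vale.Agent.P354XF Vale.Agent.P354XR

variable {A : Type*} [CommRing A] [Algebra ℂ A]

/-- The field with the components X in the frame of G. -/
noncomputable def vf (G : GHP A) (X : Fin 6 → A) : P354XG.Der A := ∑ a, X a • fr G a

theorem vf_ap (G : GHP A) (X : Fin 6 → A) (f : A) : vf G X f = ∑ a, X a * fr G a f := by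
  simp [vf, Fin.sum_univ_six]

theorem vf_six (G : GHP A) (X : Fin 6 → A) (f : A) : vf G X f = X 0 * G.th f + X 1 * G.tp f +
    X 2 * G.et f + X 3 * G.ep f + X 4 * G.H f + X 5 * G.Hb f := by
  simp [vf_ap, fr, Fin.sum_univ_six]

/-- The minors. -/
def mn (X Y : Fin 6 → A) (a b : Fin 6) : A := X a * Y b - X b * Y a
def d3 (X Y Z : Fin 6 → A) (a b c : Fin 6) : A :=
  X a * mn Y Z b c + X b * mn Y Z c a + X c * mn Y Z a b

/-- The algebraic part of the bracket, and the bracket. -/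
def gs (G : GHP A) (X Y : Fin 6 → A) (e : Fin 6) : A := ∑ a, ∑ b, X a * Y b * gam G a b e
noncomputable def br (G : GHP A) (X Y : Fin 6 → A) (e : Fin 6) : A :=
  vf G X (Y e) - vf G Y (X e) + gs G X Y e

theorem gs_tab (G : GHP A) (X Y : Fin 6 → A) :
    gs G X Y 0 = -G.c G.ta' * mn X Y 0 2 - G.ta' * mn X Y 0 3 - mn X Y 0 4 - mn X Y 0 5 -
      G.c G.ka' * mn X Y 1 2 - G.ka' * mn X Y 1 3 + (G.c G.rh' - G.rh') * mn X Y 2 3 ∧
    gs G X Y 1 = -G.ka * mn X Y 0 2 - G.c G.ka * mn X Y 0 3 - G.ta * mn X Y 1 2 -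
      G.c G.ta * mn X Y 1 3 + mn X Y 1 4 + mn X Y 1 5 + (G.rh - G.c G.rh) * mn X Y 2 3 ∧
    gs G X Y 2 = (G.c G.ta - G.ta') * mn X Y 0 1 + G.c G.rh * mn X Y 0 2 +
      G.c G.si * mn X Y 0 3 + G.rh' * mn X Y 1 2 + G.si' * mn X Y 1 3 - mn X Y 2 4 +
      mn X Y 2 5 ∧
    gs G X Y 3 = (G.ta - G.c G.ta') * mn X Y 0 1 + G.si * mn X Y 0 2 + G.rh * mn X Y 0 3 +
      G.c G.si' * mn X Y 1 2 + G.c G.rh' * mn X Y 1 3 + mn X Y 3 4 - mn X Y 3 5 ∧
    gs G X Y 4 = -(G.ka * G.ka' - G.ta * G.ta' + G.P2) * mn X Y 0 1 -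
      (G.rh' * G.ka - G.ta' * G.si) * mn X Y 0 2 - (G.si' * G.ka - G.rh * G.ta') * mn X Y 0 3 +
      (G.si * G.ka' - G.rh' * G.ta) * mn X Y 1 2 + (G.rh * G.ka' - G.ta * G.si') * mn X Y 1 3 +
      (G.rh * G.rh' - G.si * G.si' + G.P2) * mn X Y 2 3 := by
  refine ⟨?_, ?_, ?_, ?_, ?_⟩ <;>
    simp only [gs, gam, g0, mn, Fin.sum_univ_six, Matrix.cons_val, Pi.zero_apply] <;> ring

theorem vf_br (T : Tv A) (X Y : Fin 6 → A) (f : A) :
    vf T.G X (vf T.G Y f) - vf T.G Y (vf T.G X f) = vf T.G (br T.G X Y) f := by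
  have e : ∑ a, ∑ b, X a * Y b * fr T.G a (fr T.G b f) =
      ∑ a, ∑ b, X a * Y b * fr T.G b (fr T.G a f) + ∑ e, gs T.G X Y e * fr T.G e f := by
    simp only [gs, Finset.sum_mul]
    rw [Finset.sum_comm (f := fun e a => ∑ b, X a * Y b * gam T.G a b e * fr T.G e f),
      ← Finset.sum_add_distrib]
    refine Finset.sum_congr rfl fun a _ => ?_
    rw [Finset.sum_comm, ← Finset.sum_add_distrib]
    refine Finset.sum_congr rfl fun b _ => ?_
    rw [T.comm a b, mul_add, Finset.mul_sum]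
    simp only [mul_assoc]
  have k : ∀ X Y : Fin 6 → A, vf T.G X (vf T.G Y f) =
      ∑ a, ∑ b, X a * Y b * fr T.G a (fr T.G b f) + ∑ e, vf T.G X (Y e) * fr T.G e f := by
    intro X Y
    rw [vf_ap T.G Y, map_sum, Finset.sum_comm, ← Finset.sum_add_distrib]
    refine Finset.sum_congr rfl fun b _ => ?_
    rw [D_mul, vf_ap T.G X (fr T.G b f), Finset.mul_sum, mul_comm (fr T.G b f)]
    simp only [mul_assoc, mul_left_comm (Y b)]
  rw [k X Y, k Y X, e, Finset.sum_comm (f := fun a b => Y a * X b * _), vf_ap T.G (br _ _ _)]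
  simp only [br, add_mul, sub_mul, Finset.sum_add_distrib, Finset.sum_sub_distrib, mul_comm (Y _)]
  ring

/-- The self dual form with F(l,m) = f0, F(l,n) = f1 = F(mb,m), F(n,mb) = f2. -/
def Fm (f : Fin 3 → A) (X Y : Fin 6 → A) : A :=
  f 0 * mn X Y 0 2 + f 1 * (mn X Y 0 1 - mn X Y 2 3) + f 2 * mn X Y 1 3

/-- The weights of the components. -/
structure Wts (G : GHP A) (f : Fin 3 → A) : Prop where
  h0 : G.H (f 0) = 2 * f 0
  h1 : G.H (f 1) = 0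
  h2 : G.H (f 2) = -(2 * f 2)
  hb : ∀ i, G.Hb (f i) = 0

/-- The components of the exterior derivative on (l n m), (l n mb), (l m mb), (n m mb). -/
noncomputable def cur (G : GHP A) (f : Fin 3 → A) : Fin 4 → A :=
  ![G.et (f 1) - G.tp (f 0) - 2 * G.ta * f 1 + G.rh' * f 0 - G.si * f 2,
    G.th (f 2) + G.ep (f 1) - 2 * G.ta' * f 1 - G.rh * f 2 + G.si' * f 0,
    G.ep (f 0) - G.th (f 1) + 2 * G.rh * f 1 - G.ta' * f 0 + G.ka * f 2,
    -G.tp (f 1) - G.et (f 2) + 2 * G.rh' * f 1 + G.ta * f 2 - G.ka' * f 0]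

/-- The three form with the components J. -/
def F3 (J : Fin 4 → A) (X Y Z : Fin 6 → A) : A :=
  J 0 * d3 X Y Z 0 1 2 + J 1 * d3 X Y Z 0 1 3 + J 2 * d3 X Y Z 0 2 3 + J 3 * d3 X Y Z 1 2 3

/-- The formula for the exterior derivative. -/
theorem cartan {G : GHP A} {f : Fin 3 → A} (w : Wts G f) (X Y Z : Fin 6 → A) :
    vf G X (Fm f Y Z) + vf G Y (Fm f Z X) + vf G Z (Fm f X Y) - Fm f (br G X Y) Z -
      Fm f (br G Y Z) X - Fm f (br G Z X) Y = F3 (cur G f) X Y Z := by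
  have e : ∀ (U : Fin 6 → A) i, vf G U (f i) = _ := fun U i => vf_six G U (f i)
  simp only [Fm, mn, br, D_add, D_sub, D_mul, gs_tab, e, w.h0, w.h1, w.h2, w.hb, F3, cur, d3,
    Matrix.cons_val]
  ring

/-- The connection forms. -/
def cA (G : GHP A) (Y : Fin 6 → A) : A := G.ka * Y 0 + G.ta * Y 1 + G.si * Y 2 + G.rh * Y 3
def cC (G : GHP A) (Y : Fin 6 → A) : A := G.ta' * Y 0 + G.ka' * Y 1 + G.rh' * Y 2 + G.si' * Y 3

/-- The self dual connection form on the field Y. -/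
def fa (G : GHP A) (Y : Fin 6 → A) : Fin 3 → A := ![cA G Y, Y 4, cC G Y]

/-- The components of the bracket of the frame with Y. -/
noncomputable def del (G : GHP A) (Y : Fin 6 → A) (a : Fin 6) : Fin 6 → A :=
  br G (Pi.single a 1) Y

theorem del_eq (G : GHP A) (Y : Fin 6 → A) (a e : Fin 6) :
    fr G a (Y e) = del G Y a e - gs G (Pi.single a 1) Y e := by
  have : vf G Y ((Pi.single a 1 : Fin 6 → A) e) = 0 := by
    rw [Pi.single_apply]; split_ifs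
    exacts [D_one _, D_zero _]
  rw [del, br, this, vf_ap]
  simp [Pi.single_apply]

/-- The derivative of the connection form in vacuum. -/
theorem cur_fa (T : Tv A) (Y : Fin 6 → A) :
    cur T.G (fa T.G Y) 0 = del T.G Y 2 4 - vf T.G Y T.G.ta - cA T.G (del T.G Y 1) ∧
    cur T.G (fa T.G Y) 1 = del T.G Y 3 4 + vf T.G Y T.G.ta' + cC T.G (del T.G Y 0) ∧
    cur T.G (fa T.G Y) 2 = vf T.G Y T.G.rh + cA T.G (del T.G Y 3) - del T.G Y 0 4 ∧
    cur T.G (fa T.G Y) 3 = -del T.G Y 1 4 - vf T.G Y T.G.rh' - cC T.G (del T.G Y 2) := by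
  have h := T.is
  have e0 : ∀ e, T.G.th (Y e) = _ := del_eq T.G Y 0
  have e1 : ∀ e, T.G.tp (Y e) = _ := del_eq T.G Y 1
  have e2 : ∀ e, T.G.et (Y e) = _ := del_eq T.G Y 2
  have e3 : ∀ e, T.G.ep (Y e) = _ := del_eq T.G Y 3
  have r3 := h.r3
  have r4 := h.r4
  have s3 := h.r3'
  have s4 := h.r4'
  rw [T.h1] at r3 r4
  rw [T.h3] at s3 s4
  simp only [cur, fa, cA, cC, Matrix.cons_val, D_add, D_mul, e0, e1, e2, e3, gs_tab, mn, vf_six,
    h.H_ta, h.Hb_ta, h.H_ta', h.Hb_ta', h.H_rh, h.Hb_rh, h.H_rh', h.Hb_rh']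
  simp only [Pi.single_apply, Fin.reduceEq, if_true, if_false]
  refine ⟨?_, ?_, ?_, ?_⟩
  · linear_combination Y 0 * r3 + Y 2 * h.r5 + Y 3 * h.r6
  · linear_combination -Y 1 * s3 - Y 3 * h.r5' - Y 2 * h.r6'
  · linear_combination -Y 0 * h.r1 + Y 1 * h.r6 - Y 2 * r4
  · linear_combination Y 1 * h.r1' - Y 0 * h.r6' + Y 3 * s4

theorem wts_fa (T : Tv A) {Y : Fin 6 → A} (h4 : del T.G Y 4 = 0) (h5 : del T.G Y 5 = 0) :
    Wts T.G (fa T.G Y) := by
  have h := T.is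
  have e4 : ∀ e, T.G.H (Y e) = _ := del_eq T.G Y 4
  have e5 : ∀ e, T.G.Hb (Y e) = _ := del_eq T.G Y 5
  simp only [h4, h5, Pi.zero_apply] at e4 e5
  refine ⟨?_, ?_, ?_, fun i => ?_⟩
  any_goals fin_cases i
  all_goals
    simp only [fa, cA, cC, Fin.reduceFinMk, Matrix.cons_val, D_add, D_mul, e4, e5, gs_tab, mn,
      h.H_ta, h.Hb_ta, h.H_ta', h.Hb_ta', h.H_rh, h.Hb_rh, h.H_rh', h.Hb_rh', h.H_ka, h.Hb_ka,
      h.H_ka', h.Hb_ka', h.H_si, h.Hb_si, h.H_si', h.Hb_si']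
    simp only [Pi.single_apply, Fin.reduceEq, if_true, if_false]
    ring

/-- The form of the mass. -/
def fm (w : A) : Fin 3 → A := ![0, w ^ 2, 0]

theorem d_w (T : Tv A) {w : A} (hw : w ^ 3 = -T.G.P2) (D : P354XG.Der A) {k s : A}
    (e : D T.G.P2 = 3 * k * T.G.P2 + s) : D (w ^ 2) = 2 * k * w ^ 2 + 2 * T.Pi * w ^ 2 * s := by
  have e1 := congrArg D hw
  rw [D_cube, D_neg, e] at e1
  rw [D_sq]
  linear_combination -(2 * T.Pi * w ^ 2) * e1 + (6 * T.Pi * w * D w) * hw +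
    (2 * k * w ^ 2 - 2 * w * D w) * T.inv

theorem wts_fm (T : Tv A) {w : A} (hw : w ^ 3 = -T.G.P2) : Wts T.G (fm w) := by
  have e4 := d_w T hw T.G.H (k := 0) (s := 0) (by rw [T.is.H_P2]; ring)
  have e5 := d_w T hw T.G.Hb (k := 0) (s := 0) (by rw [T.is.Hb_P2]; ring)
  refine ⟨?_, ?_, ?_, fun i => ?_⟩
  any_goals fin_cases i
  all_goals simp [fm, e4, e5]

/-- The derivative of the form of the mass is quadratic. -/
theorem cur_fm (T : Tv A) {w : A} (hw : w ^ 3 = -T.G.P2) :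
    cur T.G (fm w) 0 = 2 * T.Pi * w ^ 2 * (T.G.ka' * T.G.P0) ∧
    cur T.G (fm w) 1 = 2 * T.Pi * w ^ 2 * (T.G.ka * T.G.P4) ∧
    cur T.G (fm w) 2 = -(2 * T.Pi * w ^ 2 * (T.G.si' * T.G.P0)) ∧
    cur T.G (fm w) 3 = -(2 * T.Pi * w ^ 2 * (T.G.si * T.G.P4)) := by
  have e0 := d_w T hw T.G.th (T.is.tr_th T.h1 T.h3)
  have e1 := d_w T hw T.G.tp (T.is.pr.tr_th T.h3 T.h1)
  have e2 := d_w T hw T.G.et (T.is.tr_et T.h1 T.h3)
  have e3 := d_w T hw T.G.ep (T.is.pr.tr_et T.h3 T.h1)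
  simp only [GHP.pr] at e1 e3
  simp only [cur, fm, Matrix.cons_val, e0, e1, e2, e3, D_zero]
  refine ⟨?_, ?_, ?_, ?_⟩ <;> ring

end Vale.Agent.P354DR
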