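import Vale.Agent.P354DR.Uni

/-!
The drift of the parameters is quadratic.
-/

open scoped ContDiff
open Set Filter Topology Complex

namespace Vale.Agent.P354DR

open Vale.Agent.P354XG Vale.Agent.P354XF Vale.Agent.P354XR Vale.Agent.P354XD Vale.Agent.P354XI
open Vale.Agent.P354XE (Tw)
open Vale.Agent.P354Z (An ge dat lt)
open Vale.Agent.P354YA (Rx rx_nb)

theorem root_arg {z : ℂ} (h : 0 < z.re) : |(exp (log z / 3)).im| ≤ (exp (log z / 3)).re := by
  have a : |arg z| < Real.pi / 2 := abs_arg_lt_pi_div_two_iff.2 (.inl h)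
  have e : (log z / 3).im = arg z / 3 := by simp [log_im]
  rw [exp_im, exp_re, e, abs_mul, abs_of_pos (Real.exp_pos _)]
  refine mul_le_mul_of_nonneg_left ?_ (Real.exp_pos _).le
  have b : |arg z / 3| ≤ 2 / 3 := by
    rw [abs_div, abs_of_pos (three_pos (α := ℝ))]; linarith [Real.pi_le_four]
  have c := Real.one_sub_sq_div_two_le_cos (x := arg z / 3)
  rw [← sq_abs] at c
  refine (Real.abs_sin_le_abs.trans b).trans ?_
  nlinarith [abs_nonneg (arg z / 3)]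

theorem re_P2 {r a M y s : ℝ} (hr : 0 < r) (ha : 2 * |a| ≤ r) (hM : 0 ≤ M) (hy : |y| ≤ 1)
    (hs : 0 < s) (e : s * (r * r + a * a * y * y) = 1) :
    M / (16 * r ^ 3) ≤ (2 * M * (s * (r + I * a * y)) ^ 3 : ℂ).re := by
  have b : a * a * y * y ≤ r * r / 4 := by
    have : |a * y| ≤ r / 2 := by
      rw [abs_mul]; nlinarith [abs_nonneg a, abs_nonneg y]
    nlinarith [abs_le.1 this]
  have c : 1 / 2 ≤ s * (r * r) := by nlinarith [mul_pos hr hr]
  have d : (2 * M * (s * (r + I * a * y)) ^ 3 : ℂ).re =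
      2 * M * (s ^ 3 * r) * (r * r - 3 * (a * a * y * y)) := by
    simp [pow_succ]; ring
  rw [d, div_le_iff₀ (by positivity)]
  have f := pow_le_pow_left₀ (by norm_num) c 3
  calc M ≤ 8 * M * (s * (r * r)) ^ 3 := by nlinarith
    _ = 2 * M * (s ^ 3 * r) * (r * r / 4) * (16 * r ^ 3) := by ring
    _ ≤ _ := by gcongr; linarith

/-- The parameters as functions of the charges. -/
noncomputable def Ph (y : ℝ × ℝ) : ℝ × ℝ := (y.1 * √y.1 / 2, -y.2 / (y.1 * √y.1))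
noncomputable def chg (p : ℝ × ℝ) : ℝ × ℝ := (cr p.1 ^ 2, -(2 * p.2 * p.1))

theorem Ph_chg {M : ℝ} (h : 0 < M) (a : ℝ) : Ph (chg (M, a)) = (M, a) := by
  have e : cr M ^ 2 * √(cr M ^ 2) = 2 * M := by
    rw [Real.sqrt_sq (cr_pos h).le, ← pow_succ, cr_pow h]
  simp only [Ph, chg, e, Prod.mk.injEq]
  constructor <;> field_simp

theorem Ph_lip {M : ℝ} (h : 0 < M) (a : ℝ) : ∃ (L : NNReal) (ε : ℝ), 0 < ε ∧
    LipschitzOnWith L Ph (Metric.ball (chg (M, a)) ε) ∧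
    ∀ y ∈ Metric.ball (chg (M, a)) ε, DifferentiableAt ℝ Ph y := by
  have p : (chg (M, a)).1 ≠ 0 := (pow_pos (cr_pos h) 2).ne'
  have s : ContDiffAt ℝ 1 (fun y : ℝ × ℝ => y.1 * √y.1) (chg (M, a)) :=
    contDiffAt_fst.mul (contDiffAt_fst.sqrt p)
  have c : ContDiffAt ℝ 1 Ph (chg (M, a)) := (s.div_const 2).prodMk (contDiffAt_snd.neg.div s
    (mul_ne_zero p (Real.sqrt_pos.2 (pow_pos (cr_pos h) 2)).ne'))
  obtain ⟨L, U, hU, l⟩ := c.exists_lipschitzOnWith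
  obtain ⟨ε, e, b⟩ := Metric.mem_nhds_iff.1 (inter_mem hU (c.eventually (by simp)))
  exact ⟨L, ε, e, l.mono fun y hy => (b hy).1, fun y hy =>
    ContDiffAt.differentiableAt (n := 1) (b hy).2 one_ne_zero⟩

theorem q_bm {A : Type} [CommRing A] [Algebra ℂ A] (K : Hp A) (p p' : Pm A) (S : Geo A) (F : Fr A)
    (G : GHP A) (w : A) : q1 (bm K p S F) w = q1 (bm K p' S F) w ∧
    q2 (kk K p) G (bm K p S F) = q2 (kk K p') G (bm K p' S F) := by
  have e : ph (kk K p) (bm K p S F) = ph (kk K p') (bm K p' S F) := by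
    funext e
    simp only [ph, bm, Matrix.cons_val, kk]
  simp only [q1, q2, e]
  simp only [bm, Matrix.cons_val, and_self]

/-- A transverse vacuum frame on O. -/
structure Sol (O : Set E6) (g : Tw) (F : Fr (Sm (on O))) : Prop where
  op : IsOpen O
  pos : ∀ x ∈ O, 0 < x.2.1 ∧ x.2.2 ≠ 0
  vac : ∀ x ∈ O, VacAt g (pj x)
  wn : F.WN (ge O g)
  P1 : (F.ghp (ge O g)).P1 = 0
  P3 : (F.ghp (ge O g)).P3 = 0

/-- On the sphere (t, r) the frame is close to Kerr with the parameters p = (M, a). -/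
structure Cls {O : Set E6} (G : GHP (Sm (on O))) (r t : ℝ) (p : Pm (Sm (on O))) (M a η : ℝ) :
    Prop where
  is : p.Is (hp _)
  pM : p.M = algebraMap ℂ _ M
  pa : p.a = algebraMap ℂ _ a
  sph : Sph O t r
  bd : ∀ ξ, An (t, r, ξ) → ∀ i, ‖fv (dd (hp _) p G i) (t, r, ξ)‖ ≤ η ∧
    ‖fv (Om (hp _) 2 (dd (hp _) p G i)) (t, r, ξ)‖ ≤ η

namespace Sol
variable {O : Set E6} {g : Tw} {F : Fr (Sm (on O))}

/-- The set where P2 has a cube root. -/
def O1 (g : Tw) (F : Fr (Sm (on O))) : Set E6 := O ∩ {x | 0 < (-fv (F.ghp (ge O g)).P2 x).re}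

theorem rx : Rx (on (O1 g F)) (on O) id := rx_nb (Eventually.of_forall fun _ => inter_subset_left)

theorem fv_rx (u : Sm (on O)) {x : E6} (hx : x ∈ O1 g F) :
    fv ((rx (g := g) (F := F)).rix u) x = fv u x := by
  rw [fv_in _ hx, fv_in _ hx.1]; exact ev_on (rx.rep u) hx

noncomputable def F1 (g : Tw) (F : Fr (Sm (on O))) : Fr (Sm (on (O1 g F))) := P354YA.fm rx.rix F

variable (h : Sol O g F)
include h

theorem op1 : IsOpen (O1 g F) :=
  ContinuousOn.isOpen_inter_preimage (f := fun x => (-fv (F.ghp (ge O g)).P2 x).re)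
    (fun _ hx => (continuous_re.continuousAt.comp
      (fv_sm h.op _ hx).continuousAt.neg).continuousWithinAt) h.op isOpen_Ioi

theorem off : Off (on O) := on_of h.op fun x hx => ⟨(h.pos x hx).1.ne', (h.pos x hx).2⟩

theorem gh : P354YA.GHom (ge O g) (ge (O1 g F) g) rx.rix :=
  rx.geo h.off (1 / 2) (g := fun _ => g) (on_of h.op h.vac)

theorem geo1 : (ge (O1 g F) g).Is :=
  geo_is (rx.off h.off) (1 / 2) (on_of h.op1 fun x hx => h.vac x hx.1)

noncomputable def tv : Tv (Sm (on (O1 g F))) where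
  G := (F1 g F).ghp (ge _ g)
  Pi := Ring.inverse (3 * ((F1 g F).ghp (ge _ g)).P2)
  is := Geo.WNull.is h.geo1 (h.gh.wn h.wn)
  h1 := (h.gh.ghp F).P1.symm.trans (by rw [h.P1, map_zero])
  h3 := (h.gh.ghp F).P3.symm.trans (by rw [h.P3, map_zero])
  inv := Ring.inverse_mul_cancel _ (isUnit_of_ne (on_of h.op1 fun x hx => by
    rw [← fv_in _ hx, fv_mul, F1, ← (h.gh.ghp F).P2, fv_rx _ hx]
    refine mul_ne_zero ((map_ofNat (evA ⟨x, hx⟩) 3).trans_ne (by simp)) fun e => ?_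
    simpa [e] using hx.2))

noncomputable def w : Sm (on (O1 g F)) :=
  of h.op1 (fun x => exp (log (-fv (F.ghp (ge O g)).P2 x) / 3)) fun x hx =>
    ((((contDiffAt_log (.inl hx.2)).restrict_scalars ℝ).comp (g := log) x
      (fv_sm h.op (F.ghp (ge O g)).P2 hx.1).neg).div_const 3).cexp.contDiffWithinAt

theorem fv_w {x : E6} (hx : x ∈ O1 g F) :
    fv h.w x = exp (log (-fv (F.ghp (ge O g)).P2 x) / 3) := fv_of _ _ hx

theorem w_pow : h.w ^ 3 = -h.tv.G.P2 := ext_fv h.op1 fun x hx => by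
  have e : fv (-h.tv.G.P2) x = -fv (F.ghp (ge O g)).P2 x :=
    (map_neg (evA ⟨x, hx⟩) _).trans (congrArg Neg.neg
      ((congrArg (fv · x) (h.gh.ghp F).P2.symm).trans (fv_rx _ hx)))
  rw [e, show fv (h.w ^ 3) x = fv h.w x ^ 3 from map_pow (evA ⟨x, hx⟩) _ 3, h.fv_w hx,
    ← exp_nat_mul, Nat.cast_ofNat, mul_div_cancel₀ _ three_ne_zero, exp_log]
  exact fun e => by simpa [e] using show 0 < (-fv (F.ghp (ge O g)).P2 x).re from hx.2

noncomputable def b (g : Tw) (F : Fr (Sm (on O))) (p : Pm (Sm (on O))) : M6 (Sm (on (O1 g F))) :=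
  bm (hp _) (pmap rx.rix p) (ge _ g) (F1 g F)

/-- The two densities. -/
noncomputable def d1 : Sm (on (O1 g F)) := q1 (b g F ⟨0, 0, 0, 0, 0⟩) h.w
noncomputable def d2 : Sm (on (O1 g F)) :=
  q2 (kk (hp _) (pmap rx.rix ⟨0, 0, 0, 0, 0⟩)) h.tv.G (b g F ⟨0, 0, 0, 0, 0⟩)

/-- The charges. -/
noncomputable def Q (r t : ℝ) : ℝ × ℝ := ((av h.d1 r t).re, (av h.d2 r t).re)

variable {r t M a η : ℝ} {p : Pm (Sm (on O))} (c : Cls (F.ghp (ge O g)) r t p M a η)
  (hr : 0 < r) (ha : 2 * |a| ≤ r) (hM : 0 < M) (hη : η < M / (16 * r ^ 3))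
include c hr ha hM hη

theorem sph1 : Sph (O1 g F) t r := fun ξ x => by
  have hx := c.sph ξ x
  obtain ⟨y, s, h0, h1, -, h2, -, e⟩ := val_k (kk_is (hp_is h.off) c.is) (evA ⟨_, hx⟩)
    (fun _ => fv_cj _ _) hr ((fv_in _ hx).trans (ev_on (rs_z 1) hx))
    ((congrArg (fv · _) c.pa).trans (fv_alg _ hx))
  have k : evA ⟨_, hx⟩ (dd (hp _) p (F.ghp (ge O g)) (.inr 10)) =
      evA ⟨_, hx⟩ (F.ghp (ge O g)).P2 + 2 * M * (s * (r + I * a * y)) ^ 3 := by
    rw [← sp_sub, map_sub, show sp (kk (hp _) p).kerr 10 = (kk (hp _) p).P2 from rfl, KC.P2,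
      show (kk (hp _) p).M = _ from c.pM, show sp (F.ghp (ge O g)) 10 = (F.ghp (ge O g)).P2 from rfl]
    simp only [map_neg, map_mul, e, map_ofNat, AlgHom.commutes, Algebra.algebraMap_self,
      RingHom.id_apply]
    ring
  have := (re_le_norm (fv (F.ghp (ge O g)).P2 (t, r, ξ) + _)).trans
    ((congrArg norm k).symm.trans_le (c.bd ξ x (.inr 10)).1)
  have := re_P2 hr ha hM.le h0 h1 h2
  exact ⟨hx, by simp only [mem_ofPred, neg_re, add_re] at *; linarith⟩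

noncomputable def ix : Ix r where
  O := O1 g F
  T := h.tv
  p := pmap rx.rix p
  b := b g F p
  w := h.w
  t := t
  M := M
  a := a
  η := η
  op := h.op1
  off := rx.off h.off
  is := pmap_is (rx.hp h.off) c.is
  pM := (congrArg rx.rix c.pM).trans (AlgHom.commutes _ _)
  pa := (congrArg rx.rix c.pa).trans (AlgHom.commutes _ _)
  fit := fit_fr (hp_is (rx.off h.off)) (pmap_is (rx.hp h.off) c.is) h.geo1 (h.gh.wn h.wn)
  hw := h.w_pow
  sph := h.sph1 c hr ha hM hη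
  M0 := hM
  ar := by linarith [abs_nonneg a]
  bd ξ x i := by
    have hx := h.sph1 c hr ha hM hη ξ x
    rw [show h.tv.G = (P354YA.fm rx.rix F).ghp (ge _ g) from rfl,
      ← dd_hom (rx.hp h.off) p (h.gh.ghp F), ← Om_hom (rx.hp h.off), fv_rx _ hx, fv_rx _ hx]
    exact c.bd ξ x i
  wv ξ x := by
    have hx := h.sph1 c hr ha hM hη ξ x
    rw [h.fv_w hx]
    exact root_arg hx.2

theorem ix_q : q1 (h.ix c hr ha hM hη).b (h.ix c hr ha hM hη).w = h.d1 ∧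
    q2 (kk (hp _) (h.ix c hr ha hM hη).p) (h.ix c hr ha hM hη).T.G (h.ix c hr ha hM hη).b = h.d2 :=
  q_bm (hp _) (pmap rx.rix p) _ (ge _ g) (F1 g F) h.tv.G h.w

end Sol

/-- The drift: pq depends on the solution and on r only. -/
theorem drift {M0 a0 r : ℝ} (hM : 0 < M0) (hr : 2 * |a0| < r) : ∃ C δ, 0 ≤ C ∧ 0 < δ ∧
    ∀ O g F, Sol O g F → ∃ pq : ℝ → ℝ × ℝ, ∀ t p M a η, |M - M0| ≤ δ → |a - a0| ≤ δ → 0 ≤ η →
      η ≤ δ → Cls (F.ghp (ge O g)) r t p M a η →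
      ‖(M, a) - pq t‖ ≤ C * η ∧ ∃ d, HasDerivAt pq d t ∧ ‖d‖ ≤ C * η ^ 2 := by
  have r0 : 0 < r := by linarith [abs_nonneg a0]
  obtain ⟨C, u⟩ := Ix.uni (a0 := a0) hM r0
  obtain ⟨L, ε, e0, l, df⟩ := Ph_lip hM a0
  have cc : Continuous chg := ((cr_cont.comp continuous_fst).pow 2).prodMk (by fun_prop)
  have ev : ∀ᶠ y : ℝ × ℝ × ℝ in 𝓝 (0, M0, a0), 0 < y.2.1 ∧ 2 * |y.2.2| < r ∧
      y.1 < y.2.1 / (16 * r ^ 3) ∧ dist (chg y.2) (chg (M0, a0)) + |C| * |y.1| < ε := by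
    refine (ContinuousAt.eventually_lt ?_ ?_ hM).and ((ContinuousAt.eventually_lt ?_ ?_ hr).and
      ((ContinuousAt.eventually_lt ?_ ?_ ?_).and (ContinuousAt.eventually_lt ?_ ?_ ?_)))
    any_goals fun_prop
    · positivity
    · simpa using e0
  obtain ⟨δ, d0, hδ⟩ := Metric.eventually_nhds_iff.1 (ev.and (eventually_comap.1 u))
  refine ⟨L * |C|, δ / 2, by positivity, half_pos d0, fun O g F h =>
    ⟨fun t => Ph (h.Q r t), fun t p M a η m1 m2 m3 m4 c => ?_⟩⟩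
  obtain ⟨⟨k1, k2, k3, k4⟩, k⟩ := hδ (y := (η, M, a)) (by
    simp only [Prod.dist_eq, Real.dist_eq, sub_zero, abs_of_nonneg m3, max_lt_iff]
    exact ⟨by linarith, by linarith, by linarith⟩)
  obtain ⟨a1, a2, a3, a4⟩ := k (h.ix c r0 k2.le k1 k3) rfl
  rw [(h.ix_q c r0 k2.le k1 k3).1] at a1 a3
  rw [(h.ix_q c r0 k2.le k1 k3).2] at a2 a4
  have s := h.sph1 c r0 k2.le k1 k3
  have re : ∀ {z : ℂ} {x B : ℝ}, 0 ≤ B → ‖z - x‖ ≤ C * B → ‖z.re - x‖ ≤ |C| * B :=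
    fun {z x _} b e => (by simpa using abs_re_le_norm (z - x) : _ ≤ _).trans
      (e.trans (mul_le_mul_of_nonneg_right (le_abs_self C) b))
  have q : dist (h.Q r t) (chg (M, a)) ≤ |C| * |η| := by
    rw [dist_eq_norm, Prod.norm_def]
    exact max_le (re (abs_nonneg _) a1) (re (abs_nonneg _) a2)
  have b1 : h.Q r t ∈ Metric.ball (chg (M0, a0)) ε :=
    (dist_triangle _ (chg (M, a)) _).trans_lt (by linarith)
  have b2 : chg (M, a) ∈ Metric.ball (chg (M0, a0)) ε :=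
    lt_of_le_of_lt (le_add_of_nonneg_right (by positivity)) k4
  have D := fun u => (reCLM.hasFDerivAt.comp_hasDerivAt t
    (av_der h.op1 (hp_is (Sol.rx.off h.off)) s u))
  refine ⟨?_, _, (df _ b1).hasFDerivAt.comp_hasDerivAt t ((D h.d1).prodMk (D h.d2)), ?_⟩
  · rw [← dist_eq_norm, dist_comm, ← Ph_chg k1 a, mul_assoc, ← abs_of_nonneg m3]
    exact (l.dist_le_mul _ b1 _ b2).trans (mul_le_mul_of_nonneg_left q L.2)
  · rw [mul_assoc]
    refine (ContinuousLinearMap.le_opNorm _ _).trans (mul_le_mul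
      (norm_fderiv_le_of_lipschitzOn ℝ (Metric.isOpen_ball.mem_nhds b1) l) ?_ (norm_nonneg _) L.2)
    have c' := mul_le_mul_of_nonneg_right (le_abs_self C) (sq_nonneg η)
    exact max_le (((abs_re_le_norm _).trans a3).trans c') (((abs_re_le_norm _).trans a4).trans c')

end Vale.Agent.P354DR
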