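import Vale.Agent.P354DR.Psh
import Vale.Agent.P354RI.Cd

/-!
Closeness to Kerr on the coordinates; the shift of the time and the twist of the spinors.
-/

namespace Vale.Agent.P354DR

open Vale.Agent.P354XG Vale.Agent.P354XF Vale.Agent.P354XR Vale.Agent.P354XD
open Vale.Agent.P354Z (cm dat f4 sc)
open Vale.Agent.P354RI (RR KR Tri kc zv zu sh ky fr_kc vk_z)

variable {A B : Type} [CommRing A] [Algebra ℂ A] [CommRing B] [Algebra ℂ B] {ρ : A → B → Prop}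

theorem sc_kr {K : KC A} {K' : KC B} (k : KR ρ K K') (i : Fin 13) :
    ρ (sc K.kerr i) (sc K'.kerr i) := by
  have z := k.rr.zero
  fin_cases i
  exacts [z, z, k.rh, k.ta, z, z, k.rh2, k.ta2, z, z, k.P2, z, z]

theorem zu_rr (h : RR ρ) {K : Hp A} {K' : Hp B} {p : Pm A} {p' : Pm B} {e : Fin 6 → A}
    {e' : Fin 6 → B} (z : ∀ i, i ≠ 0 → ρ (K.z i) (K'.z i)) (n : ρ K.Ni K'.Ni) (h1 : ρ p.h1 p'.h1)
    (j1 : ρ p.j1 p'.j1) (v : ∀ i, ρ (e i) (e' i)) (i : Fin 6) :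
    ρ (zu (sh K p e) K.z i) (zu (sh K' p' e') K'.z i) := by
  obtain ⟨a1, a2, a3, -⟩ := kc_rr h z n
  have z2 := z 2 (by decide)
  have z3 := z 3 (by decide)
  have z4 := z 4 (by decide)
  have z5 := z 5 (by decide)
  have := h.ii
  fin_cases i <;> simp only [zu, sh, Fin.reduceFinMk, Matrix.cons_val] <;>
    repeat' first | assumption | apply v | apply h.mul | apply h.add | apply h.sub

variable {c : B →+* B} (N : Tri c)

/-- G is close to Kerr with the parameters p in the chart K. -/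
structure Nz (K : Hp B) (p : Pm B) (G : GHP B) : Prop where
  fz : ∀ b i, N.Ci (fr G b (K.z i)) (fr (kk K p).kerr b (K.z i))
  sl : ∀ i, N.Ci (sc G i) (sc (kk K p).kerr i)

/-- The coordinates Y are the coordinates of K with a shift and a twist. -/
structure Tws (K : Hp B) (Y : Fin 6 → B) (α u v : B) : Prop where
  y0 : Y 0 = K.z 0 + α
  y1 : Y 1 = K.z 1
  y2 : Y 2 = v * K.z 2
  y3 : Y 3 = u * K.z 3
  y4 : Y 4 = u * K.z 4
  y5 : Y 5 = v * K.z 5
  uv : u * v = 1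

variable {N} {K : Hp B} {p p' : Pm B} {G : GHP B}

theorem ci_of {f g f' g' : B} (h : N.Ci f g) (e : f' = f) (e' : g' = g) : N.Ci f' g' := e ▸ e' ▸ h

theorem Nz.dd (h : Nz N K p G) (b : HB K N.B) (q : PB p N.B) (i : (Fin 4 × Fin 6) ⊕ Fin 13) :
    dd K p G i ∈ N.I := by
  rcases i with ⟨a, μ⟩ | i
  · refine (cz_rr (K := K) (K' := K) (v := fun i => f4 G a (K.z i))
      (v' := fun i => f4 (kk K p).kerr a (K.z i)) N.rr_ci (fun i hi => .refl (b.z i hi))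
      (.refl b.Ni) (.refl q.h1) (.refl q.j1) (fun i => ?_) μ).2
    fin_cases a
    exacts [h.fz 0 i, h.fz 1 i, h.fz 2 i, h.fz 3 i]
  · exact (h.sl i).2

/-- A change of the parameters. -/
theorem Nz.par (h : Nz N K p G) (k : K.Is) (i : p.Is K) (i' : p'.Is K) (b : HB K N.B)
    (s : p.sg ∈ N.B) (q : PB p' N.B) (a : p.a - p'.a ∈ N.I) (M : p.M - p'.M ∈ N.I)
    (h1 : p.h1 - p'.h1 ∈ N.I) (j1 : p.j1 - p'.j1 ∈ N.I) : Nz N K p' G := by
  have r := kr_par N ⟨b.z, b.Ni, q.sg, q.a, q.M⟩ s i.hg i'.hg a M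
  refine ⟨fun b' i => (h.fz b' i).trans ?_, fun i => (h.sl i).trans (sc_kr r i)⟩
  rw [fr_kc, fr_kc, vk_z k, vk_z k]
  exact zu_rr N.rr_ci (fun i hi => .refl (b.z i hi)) (.refl b.Ni) ⟨q.h1, h1⟩ ⟨q.j1, j1⟩ (r.kc b') i

theorem Tws.ci {Y e : Fin 6 → B} {α u v : B} (w : Tws K Y α u v) (n : K.N * K.Ni = 1)
    (b : HB K N.B) (q : PB p N.B) (bu : u ∈ N.B) (bv : v ∈ N.B) {X : P354XG.Der B}
    (da : X α = (p.h1 - 1) * X (K.z 1)) (du : X u = ii B * p.j1 * u * X (K.z 1))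
    (h : ∀ i, N.Ci (X (Y i)) (zv e Y i)) (i : Fin 6) :
    N.Ci (X (K.z i)) (zu (sh K p e) K.z i) := by
  have r := N.rr_ci
  have uv := w.uv
  have dv : X v = -(ii B * p.j1 * v * X (K.z 1)) := by
    have := congrArg X uv
    rw [D_mul, D_one, du] at this
    linear_combination v * this - (X v + ii B * p.j1 * v * X (K.z 1)) * uv
  have h0 := h 0
  have h1 := h 1
  have h2 := h 2
  have h3 := h 3
  have h4 := h 4
  have h5 := h 5
  simp only [zv, Matrix.cons_val, w.y0, w.y1, w.y2, w.y3, w.y4, w.y5, D_add, D_mul, da, du,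
    dv] at h0 h1 h2 h3 h4 h5
  have j : ∀ k, k ≠ 0 → N.Ci (ii B * p.j1 * K.z k * X (K.z 1)) (ii B * p.j1 * K.z k * e 1) :=
    fun k hk => r.mul (.refl (mul_mem (mul_mem ii_mem q.j1) (b.z k hk))) h1
  rw [Hp.N] at n
  fin_cases i <;> simp only [zu, sh, Hp.kc, Fin.reduceFinMk, Matrix.cons_val]
  · exact ci_of (r.sub h0 (r.mul (.refl (sub_mem q.h1 (one_mem _))) h1)) (by ring) (by ring)
  · exact h1
  · exact ci_of (r.add (r.mul (.refl bu) h2) (j 2 (by decide)))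
      (by linear_combination (ii B * p.j1 * K.z 2 * X (K.z 1) - X (K.z 2)) * uv)
      (by linear_combination (e 2 * K.z 5 - e 4 * K.z 2) * uv + ii B * p.j1 * K.z 2 * e 1 * n)
  · exact ci_of (r.sub (r.mul (.refl bv) h3) (j 3 (by decide)))
      (by linear_combination (-(ii B * p.j1 * K.z 3 * X (K.z 1)) - X (K.z 3)) * uv)
      (by linear_combination (-(e 2 * K.z 4) - e 4 * K.z 3) * uv - ii B * p.j1 * K.z 3 * e 1 * n)
  · exact ci_of (r.sub (r.mul (.refl bv) h4) (j 4 (by decide)))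
      (by linear_combination (-(ii B * p.j1 * K.z 4 * X (K.z 1)) - X (K.z 4)) * uv)
      (by linear_combination (e 3 * K.z 3 - e 5 * K.z 4) * uv - ii B * p.j1 * K.z 4 * e 1 * n)
  · exact ci_of (r.add (r.mul (.refl bu) h5) (j 5 (by decide)))
      (by linear_combination (ii B * p.j1 * K.z 5 * X (K.z 1) - X (K.z 5)) * uv)
      (by linear_combination (-(e 3 * K.z 2) - e 5 * K.z 5) * uv + ii B * p.j1 * K.z 5 * e 1 * n)

/-- PUSH with a shift and a twist. -/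
theorem push_tw {φ : A →ₐ[ℂ] B} {G0 : GHP A} (g : GHP.Hom G0 G φ) {y : Fin 6 → A} {c0 : A →+* A}
    {Ni sg a M : A} (h : K.Is) (i : p.Is K) (b : HB K N.B) (q : PB p N.B) {α u v : B}
    (w : Tws K (fun i => φ (y i)) α u v) (bu : u ∈ N.B) (bv : v ∈ N.B)
    (da : ∀ b, fr G b α = (p.h1 - 1) * fr G b (K.z 1))
    (du : ∀ b, fr G b u = ii B * p.j1 * u * fr G b (K.z 1)) (hN : (ky c0 y Ni sg a M).N * Ni = 1)
    (hg : sg * (y 1 * y 1 + a * a * (ky c0 y Ni sg a M).x * (ky c0 y Ni sg a M).x) = 1)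
    (s : φ sg ∈ N.B) (ha : φ a - p.a ∈ N.I) (hM : φ M - p.M ∈ N.I)
    (o : Po N φ G0 y (ky c0 y Ni sg a M)) : Nz N K p G := by
  have r := P354RI.rr_hom φ
  have uv := w.uv
  have e : φ (ky c0 y Ni sg a M).N = K.N := by
    simp only [ky, kk, Hp.kc, Hp.N, map_add, map_mul, w.y2, w.y3, w.y4, w.y5]
    linear_combination (K.z 2 * K.z 4 + K.z 3 * K.z 5) * uv
  have n : φ Ni = K.Ni := by
    have := congrArg φ hN
    rw [map_mul, map_one, e] at this
    linear_combination K.Ni * this - φ Ni * h.hN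
  have k1 : KR (fun f g => φ f = g) (ky c0 y Ni sg a M) (kk K ⟨φ a, φ M, φ sg, 1, 0⟩) := by
    refine ⟨r, w.y1, ?_, ?_, ?_, e, n, rfl, rfl, rfl⟩ <;>
      simp only [ky, kk, Hp.kc, map_sub, map_mul, map_ofNat, w.y2, w.y3, w.y4, w.y5, n]
    · linear_combination (K.z 2 * K.z 4 - K.z 3 * K.z 5) * K.Ni * uv
    · linear_combination 2 * K.z 2 * K.z 3 * K.Ni * uv
    · linear_combination 2 * K.z 4 * K.z 5 * K.Ni * uv
  have x : φ (ky c0 y Ni sg a M).x = K.kc.x := k1.x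
  have k2 : KR N.Ci (kk K ⟨φ a, φ M, φ sg, 1, 0⟩) (kk K p) :=
    kr_par N ⟨b.z, b.Ni, q.sg, q.a, q.M⟩ s
      (by simpa only [map_mul, map_add, map_one, w.y1, x] using congrArg φ hg) i.hg ha hM
  have m : ∀ i, i ≠ 0 → φ (y i) ∈ N.B := fun i hi => by
    fin_cases i
    exacts [absurd rfl hi, w.y1 ▸ b.z1, w.y2 ▸ mul_mem bv b.z2, w.y3 ▸ mul_mem bu b.z3,
      w.y4 ▸ mul_mem bu b.z4, w.y5 ▸ mul_mem bv b.z5]
  refine ⟨fun b' i => ?_, fun i => ?_⟩
  · rw [fr_kc, vk_z h]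
    refine w.ci h.hN b q bu bv (da b') (du b') (fun i => ?_) i
    have e := N.rr_ci.zv (y := fun i => φ (y i)) (k2.kc b') (fun i e => .refl (m i e)) i
    rw [← r.zv (k1.kc b') (fun i _ => rfl) i] at e
    have e1 : φ (fr G0 b' (y i)) = fr G b' (φ (y i)) := by
      fin_cases b'
      exacts [g.th _, g.tp _, g.et _, g.ep _, g.H _, g.Hb _]
    exact ⟨e.1, by simpa only [map_sub, e1, sub_add_sub_cancel] using add_mem (o.tb b' i) e.2⟩
  · have e1 : φ (sc G0 i) = sc G i := by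
      fin_cases i
      exacts [g.ka, g.si, g.rh, g.ta, g.ka', g.si', g.rh', g.ta', g.P0, g.P1, g.P2, g.P3, g.P4]
    have e := sc_kr k2 i
    have e2 := add_mem (o.sl i) e.2
    exact ⟨e.1, by simpa only [map_sub, e1, sc_kr k1 i, sub_add_sub_cancel] using e2⟩

end Vale.Agent.P354DR
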