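import Vale.Agent.P354DR.Cht
import Vale.Agent.P354RI.Tri

/-!
The output of the rigidity theorem in the new chart: the algebra.
-/

namespace Vale.Agent.P354DR

open Vale.Agent.P354XG Vale.Agent.P354XF Vale.Agent.P354XR Vale.Agent.P354XD
open Vale.Agent.P354Z (cm dat f4 sc)
open Vale.Agent.P354YA (HHom)
open Vale.Agent.P354RI (RR KR Tri kc zv ky Vv fr_kc)

variable {A B : Type} [CommRing A] [Algebra ℂ A] [CommRing B] [Algebra ℂ B]

/-- The components of the field with the values v on the coordinates. -/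
noncomputable def cz (K : Hp A) (p : Pm A) (v : Fin 6 → A) : Fin 6 → A :=
  ![v 0 + v 1 * p.h1, v 1,
    K.Ni * (K.z 2 * v 3 - K.z 3 * v 2) + v 1 * p.j1 * (ii A * K.kc.s),
    K.Ni * (K.z 4 * v 5 - K.z 5 * v 4) - v 1 * p.j1 * (ii A * K.kc.sb),
    K.Ni * (K.z 4 * v 2 + K.z 5 * v 3) - v 1 * p.j1 * (ii A * K.kc.x),
    K.Ni * (K.z 2 * v 4 + K.z 3 * v 5) + v 1 * p.j1 * (ii A * K.kc.x)]

theorem cm_cz (K : Hp A) (p : Pm A) (D : P354XG.Der A) : cm K p D = cz K p fun i => D (K.z i) := rfl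

variable {ρ : A → B → Prop}

theorem kc_rr (h : RR ρ) {K : Hp A} {K' : Hp B} (z : ∀ i, i ≠ 0 → ρ (K.z i) (K'.z i))
    (n : ρ K.Ni K'.Ni) : ρ K.kc.x K'.kc.x ∧ ρ K.kc.s K'.kc.s ∧ ρ K.kc.sb K'.kc.sb ∧ ρ K.N K'.N := by
  have z2 := z 2 (by decide)
  have z3 := z 3 (by decide)
  have z4 := z 4 (by decide)
  have z5 := z 5 (by decide)
  exact ⟨h.mul (h.sub (h.mul z2 z4) (h.mul z3 z5)) n, h.mul (h.mul (h.mul h.two z2) z3) n,
    h.mul (h.mul (h.mul h.two z4) z5) n, h.add (h.mul z2 z4) (h.mul z3 z5)⟩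

theorem cz_rr (h : RR ρ) {K : Hp A} {K' : Hp B} {p : Pm A} {p' : Pm B} {v : Fin 6 → A}
    {v' : Fin 6 → B} (z : ∀ i, i ≠ 0 → ρ (K.z i) (K'.z i)) (n : ρ K.Ni K'.Ni) (h1 : ρ p.h1 p'.h1)
    (j1 : ρ p.j1 p'.j1) (e : ∀ i, ρ (v i) (v' i)) (μ : Fin 6) : ρ (cz K p v μ) (cz K' p' v' μ) := by
  obtain ⟨a1, a2, a3, -⟩ := kc_rr h z n
  have z2 := z 2 (by decide)
  have z3 := z 3 (by decide)
  have z4 := z 4 (by decide)
  have z5 := z 5 (by decide)
  have := h.ii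
  fin_cases μ <;> simp only [cz, Fin.reduceFinMk, Matrix.cons_val] <;>
    repeat' first | assumption | apply e | apply h.mul | apply h.add | apply h.sub

theorem kr_kk (h : RR ρ) {K : Hp A} {K' : Hp B} {p : Pm A} {p' : Pm B}
    (z : ∀ i, i ≠ 0 → ρ (K.z i) (K'.z i)) (n : ρ K.Ni K'.Ni) (s : ρ p.sg p'.sg) (a : ρ p.a p'.a)
    (M : ρ p.M p'.M) : KR ρ (kk K p) (kk K' p') :=
  let ⟨a1, a2, a3, a4⟩ := kc_rr h z n
  ⟨h, z 1 (by decide), a1, a2, a3, a4, n, s, a, M⟩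

theorem zv_z {K : Hp A} (h : K.Is) {p : Pm A} (h1 : p.h1 = 1) (j1 : p.j1 = 0) (e : Fin 6 → A)
    (i : Fin 6) : Vv (kk K p) e (K.z i) = zv e K.z i := by
  obtain ⟨-, -, -, -, -, -, -, -, -, -, -, -, a, b, c, d⟩ := h.tab
  rw [Vv, kk_V]
  fin_cases i <;> simp [zv, KC.V_ap, Hp.kc, h.dz, a, b, c, d, h1, j1] <;> ring

/-- The data of Kerr are related. -/
theorem dat_kr {K : Hp A} {K' : Hp B} (h : K.Is) (h' : K'.Is) {p : Pm A} {p' : Pm B}
    (k : KR ρ (kk K p) (kk K' p')) (i : (Fin 4 × Fin 6) ⊕ Fin 13) :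
    ρ (dat K p (kk K p).kerr i) (dat K' p' (kk K' p').kerr i) := by
  rcases i with ⟨a, μ⟩ | i
  · have e : ∀ {A : Type} [CommRing A] [Algebra ℂ A] {K : Hp A} (_ : K.Is) (p : Pm A),
        dat K p (kk K p).kerr (.inl (a, μ)) = kc (kk K p) (a.castAdd 2) μ := fun h p => by
      fin_cases a <;> exact congrFun (cm_V h p _ _ _ _ _ _) μ
    rw [e h, e h']
    exact k.kc _ _
  · have z := k.rr.zero
    fin_cases i
    exacts [z, z, k.rh, k.ta, z, z, k.rh2, k.ta2, z, z, k.P2, z, z]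

variable {c : B →+* B} (N : Tri c)

theorem ci_inv {u u' s s' : B} (h : N.Ci u u') (e : s * u = 1) (e' : s' * u' = 1) (b : s ∈ N.B)
    (b' : s' ∈ N.B) : N.Ci s s' :=
  ⟨b', by
    rw [show s - s' = -(s * s') * (u - u') by linear_combination s' * e - s * e']
    exact N.mI _ (neg_mem (mul_mem b b')) _ h.2⟩

/-- The functions of the chart K and the parameters p are bounded. -/
structure Bk (K : Hp B) (p : Pm B) : Prop where
  z : ∀ i, i ≠ 0 → K.z i ∈ N.B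
  Ni : K.Ni ∈ N.B
  sg : p.sg ∈ N.B
  a : p.a ∈ N.B
  M : p.M ∈ N.B

/-- A change of the parameters. -/
theorem kr_par {K : Hp B} {p p' : Pm B} (b : Bk N K p') (s : p.sg ∈ N.B)
    (g : p.sg * (K.z 1 * K.z 1 + p.a * p.a * K.kc.x * K.kc.x) = 1)
    (g' : p'.sg * (K.z 1 * K.z 1 + p'.a * p'.a * K.kc.x * K.kc.x) = 1) (a : p.a - p'.a ∈ N.I)
    (M : p.M - p'.M ∈ N.I) : KR N.Ci (kk K p) (kk K p') := by
  have r := N.rr_ci
  have z : ∀ i, i ≠ 0 → N.Ci (K.z i) (K.z i) := fun i e => .refl (b.z i e)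
  have x := (kc_rr r z (.refl b.Ni)).1
  have a : N.Ci p.a p'.a := ⟨b.a, a⟩
  exact kr_kk r z (.refl b.Ni) (ci_inv N (r.add (r.mul (z 1 (by decide)) (z 1 (by decide)))
    (r.mul (r.mul (r.mul a a) x) x)) g g' s b.sg) a ⟨b.M, M⟩

/-- The output of the rigidity theorem after the application of φ. -/
structure Po (φ : A →ₐ[ℂ] B) (G : GHP A) (y : Fin 6 → A) (K : KC A) : Prop where
  tb : ∀ b i, φ (fr G b (y i) - zv (kc K b) y i) ∈ N.I
  sl : ∀ i, φ (sc G i - sc K.kerr i) ∈ N.I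

/-- PUSH: φ maps the coordinates y to the coordinates of the chart K', and W are the values of the
frame on the coordinates. -/
theorem push {φ : A →ₐ[ℂ] B} {G : GHP A} {y : Fin 6 → A} {c0 : A →+* A} {Ni sg a M : A}
    {K' : Hp B} {p : Pm B} (h : K'.Is) (q : p.Is K') (h1 : p.h1 = 1) (j1 : p.j1 = 0)
    (b : Bk N K' p) (hy : ∀ i, φ (y i) = K'.z i) (hN : (ky c0 y Ni sg a M).N * Ni = 1)
    (hg : sg * (y 1 * y 1 + a * a * (ky c0 y Ni sg a M).x * (ky c0 y Ni sg a M).x) = 1)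
    (s : φ sg ∈ N.B) (ha : φ a - p.a ∈ N.I) (hM : φ M - p.M ∈ N.I)
    (o : Po N φ G y (ky c0 y Ni sg a M)) :
    (∀ b i, N.Ci (φ (fr G b (y i))) (fr (kk K' p).kerr b (K'.z i))) ∧
      ∀ i, N.Ci (φ (sc G i)) (sc (kk K' p).kerr i) := by
  have r := P354RI.rr_hom φ
  have n : φ Ni = K'.Ni := by
    have e := congrArg φ hN
    have : φ (ky c0 y Ni sg a M).N = K'.N := by
      simp only [ky, kk, Hp.kc, Hp.N, map_add, map_mul, hy]
    rw [map_mul, map_one, this] at e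
    linear_combination K'.Ni * e - φ Ni * h.hN
  have k1 : KR (fun f g => φ f = g) (ky c0 y Ni sg a M) (kk K' ⟨φ a, φ M, φ sg, 1, 0⟩) :=
    kr_kk (K := ⟨c0, 0, y, 0, Ni⟩) r (fun i _ => hy i) n rfl rfl rfl
  have x : φ (ky c0 y Ni sg a M).x = K'.kc.x := k1.x
  have k2 : KR N.Ci (kk K' ⟨φ a, φ M, φ sg, 1, 0⟩) (kk K' p) := kr_par N b s
    (by simpa only [map_mul, map_add, map_one, hy, x] using congrArg φ hg) q.hg ha hM
  constructor
  · intro b' i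
    have e := N.rr_ci.zv (k2.kc b') (fun i e => .refl (b.z i e)) i
    rw [← r.zv (k1.kc b') (fun i _ => hy i) i] at e
    rw [fr_kc, zv_z h h1 j1]
    exact ⟨e.1, by simpa only [map_sub, sub_add_sub_cancel] using add_mem (o.tb b' i) e.2⟩
  · intro i
    have e1 : φ (sc (ky c0 y Ni sg a M).kerr i) = sc (kk K' ⟨φ a, φ M, φ sg, 1, 0⟩).kerr i := by
      have z := map_zero φ
      fin_cases i
      exacts [z, z, k1.rh, k1.ta, z, z, k1.rh2, k1.ta2, z, z, k1.P2, z, z]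
    have e := dat_kr h h k2 (.inr i)
    have e2 := add_mem (o.sl i) e.2
    exact ⟨e.1, by simpa only [map_sub, e1, dat, Sum.elim_inr, sub_add_sub_cancel] using e2⟩

/-- From the values on the coordinates to the data, in any chart. -/
theorem dat_ci {ψ : A →ₐ[ℂ] B} {K : Hp A} {K' : Hp B} (h : HHom K K' ψ) {p0 : Pm A} {p : Pm B}
    (z : ∀ i, i ≠ 0 → K'.z i ∈ N.B) (n : K'.Ni ∈ N.B) (h1 : N.Ci (ψ p0.h1) p.h1)
    (j1 : N.Ci (ψ p0.j1) p.j1) {G : GHP A} {G' : GHP B}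
    (e : ∀ b i, N.Ci (ψ (fr G b (K.z i))) (fr G' b (K'.z i)))
    (s : ∀ i, N.Ci (ψ (sc G i)) (sc G' i)) (i : (Fin 4 × Fin 6) ⊕ Fin 13) :
    N.Ci (ψ (dat K p0 G i)) (dat K' p G' i) := by
  rcases i with ⟨a, μ⟩ | i
  · refine cz_rr (K := K) (K' := K') (v := fun i => f4 G a (K.z i))
      (v' := fun i => f4 G' a (K'.z i)) (N.rr_ci.comp ψ) (fun i hi => ?_) ?_ h1 j1 (fun i => ?_) μ
    · rw [h.z]; exact .refl (z i hi)
    · rw [h.Ni]; exact .refl n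
    · fin_cases a
      exacts [e 0 i, e 1 i, e 2 i, e 3 i]
  · exact s i

end Vale.Agent.P354DR
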