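import Vale.Agent.P354DR.Main

/-!
The total drift of the parameters.
-/

open Set Filter Topology

namespace Vale.Agent.P354DR

open Vale.Agent.P354XG Vale.Agent.P354XR Vale.Agent.P354XD Vale.Agent.P354XI
open Vale.Agent.P354Z (An ge dat lt)

theorem q2_ge {O : Set E6} {ι : Type} [Fintype ι] (X : ι → Der (Sm (on O))) (x : E6) (n : ℕ)
    (f : Sm (on O)) : ‖fv f x‖ ^ 2 ≤ P354Z.q2 X x n f := by
  induction n generalizing f with
  | zero => exact le_rfl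
  | succ n ih =>
    exact (ih f).trans (le_add_of_nonneg_right (Finset.sum_nonneg fun a _ =>
      (sq_nonneg _).trans (ih _)))

/-- Closeness in the letters lt. -/
theorem Cls.of_q2 {O : Set E6} {G : GHP (Sm (on O))} {r t M a η : ℝ} {p p' : Pm (Sm (on O))}
    {n : ℕ} (is : p.Is (hp _)) (pM : p.M = algebraMap ℂ _ M) (pa : p.a = algebraMap ℂ _ a)
    (h0 : 0 ≤ η) (h : ∀ ξ, An (t, r, ξ) → (t, r, ξ) ∈ O ∧ ∀ i, P354Z.q2 (lt (hp _) p') (t, r, ξ)
      (n + 1) (dat (hp _) p G i - dat (hp _) p (kk (hp _) p).kerr i) ≤ η ^ 2) :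
    Cls G r t p M a η := by
  refine ⟨is, pM, pa, fun ξ x => (h ξ x).1, fun ξ x i => ⟨?_, ?_⟩⟩
  · exact (pow_le_pow_iff_left₀ (norm_nonneg _) h0 two_ne_zero).1
      ((q2_ge _ _ _ _).trans ((h ξ x).2 i))
  · refine (pow_le_pow_iff_left₀ (norm_nonneg _) h0 two_ne_zero).1 (le_trans ?_ ((h ξ x).2 i))
    refine (q2_ge (lt (hp _) p') _ n _).trans (le_add_of_nonneg_of_le
      ((sq_nonneg _).trans (q2_ge _ _ _ _)) ?_)
    exact Finset.single_le_sum (f := fun a => P354Z.q2 (lt (hp _) p') (t, r, ξ) n (lt (hp _) p' a _))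
      (fun a _ => (sq_nonneg _).trans (q2_ge _ _ _ _)) (Finset.mem_univ 4)

theorem slab {E : Type*} [NormedAddCommGroup E] [NormedSpace ℝ E] {f : ℝ → E} {s t1 t2 : ℝ}
    {n : ℕ → ℝ} (hn : ∀ j, 0 ≤ n j) (hs : s ≤ t1) (h : ∀ t ∈ Icc t1 t2, ∃ d, HasDerivAt f d t ∧
      ∀ j : ℕ, s + j ≤ t → t ≤ s + j + 1 → ‖d‖ ≤ n j) (k : ℕ) :
    ∀ t ∈ Icc t1 t2, t ≤ s + k → ‖f t - f t1‖ ≤ ∑ j ∈ Finset.range k, n j := by
  choose! d h1 h2 using h
  induction k with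
  | zero => intro t ht e; simp [le_antisymm (e.trans (by simpa using hs)) ht.1]
  | succ k ih =>
    intro t ht e
    rw [Finset.sum_range_succ]
    rcases le_total t (s + k) with c | c
    · exact (ih t ht c).trans (le_add_of_nonneg_right (hn k))
    push_cast at e
    have m1 : max t1 (s + k) ≤ t := max_le ht.1 c
    have sub : ∀ x ∈ Icc (max t1 (s + k)) t, x ∈ Icc t1 t2 := fun x hx =>
      ⟨(le_max_left _ _).trans hx.1, hx.2.trans ht.2⟩
    have a := norm_image_sub_le_of_norm_deriv_le_segment' (f := f) (f' := d) (C := n k)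
      (fun x hx => (h1 x (sub x hx)).hasDerivWithinAt) (fun x hx => h2 x (sub x ⟨hx.1, hx.2.le⟩) k
        ((le_max_right _ _).trans hx.1) (by linarith [hx.2])) t ⟨m1, le_rfl⟩
    have b : ‖f (max t1 (s + k)) - f t1‖ ≤ ∑ j ∈ Finset.range k, n j := by
      rcases le_total t1 (s + k) with c' | c'
      · exact ih _ (sub _ ⟨le_rfl, m1⟩) (max_eq_right c').le
      · simpa [max_eq_left c'] using Finset.sum_nonneg fun j _ => hn j
    have := mul_le_of_le_one_right (hn k) (show t - max t1 (s + k) ≤ 1 by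
      linarith [le_max_right t1 (s + k)])
    linarith [norm_sub_le_norm_sub_add_norm_sub (f t) (f (max t1 (s + k))) (f t1)]

/-- The total drift between two times; n j bounds the square of η on the slab number j. -/
theorem drift_sum {M0 a0 r : ℝ} (hM : 0 < M0) (hr : 2 * |a0| < r) : ∃ C δ, 0 ≤ C ∧ 0 < δ ∧
    ∀ O g F, Sol O g F → ∀ (p : ℝ → Pm (Sm (on O))) (M a η : ℝ → ℝ) (s t1 t2 Q : ℝ) (n : ℕ → ℝ),
      s ≤ t1 → t1 ≤ t2 → (∀ t ∈ Icc t1 t2, |M t - M0| ≤ δ ∧ |a t - a0| ≤ δ ∧ 0 ≤ η t ∧ η t ≤ δ ∧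
        Cls (F.ghp (ge O g)) r t (p t) (M t) (a t) (η t) ∧
        ∀ j : ℕ, s + j ≤ t → t ≤ s + j + 1 → η t ^ 2 ≤ n j) →
      (∀ j, 0 ≤ n j) → (∀ k, ∑ j ∈ Finset.range k, n j ≤ Q) →
      |M t2 - M t1| + |a t2 - a t1| ≤ C * (η t1 + η t2 + Q) := by
  obtain ⟨C, δ, c0, d0, H⟩ := drift hM hr
  refine ⟨2 * C, δ, by positivity, d0, fun O g F S p M a η s t1 t2 Q n hs ht h hn hQ => ?_⟩
  obtain ⟨pq, H⟩ := H O g F S
  have H := fun t ht => let ⟨a1, a2, a3, a4, a5, _⟩ := h t ht; H t _ _ _ _ a1 a2 a3 a4 a5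
  obtain ⟨k, hk⟩ := exists_nat_ge (t2 - s)
  have e := slab (f := pq) (n := fun j => C * n j) (fun j => mul_nonneg c0 (hn j)) hs
    (fun t ht => (H t ht).2.imp fun d e => ⟨e.1, fun j a b => e.2.trans
      (mul_le_mul_of_nonneg_left ((h t ht).2.2.2.2.2 j a b) c0)⟩) k t2 ⟨ht, le_rfl⟩ (by linarith)
  rw [← Finset.mul_sum] at e
  have e1 := (H t1 ⟨le_rfl, ht⟩).1
  have e2 := (H t2 ⟨ht, le_rfl⟩).1
  have e3 := mul_le_mul_of_nonneg_left (hQ k) c0
  have e4 : ‖((M t2, a t2) : ℝ × ℝ) - (M t1, a t1)‖ ≤ C * (η t1 + η t2 + Q) := by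
    rw [norm_sub_rev] at e1
    linarith [norm_sub_le_norm_sub_add_norm_sub (M t2, a t2) (pq t2) (M t1, a t1),
      norm_sub_le_norm_sub_add_norm_sub (pq t2) (pq t1) (M t1, a t1)]
  linarith [show |M t2 - M t1| ≤ _ from (norm_fst_le _).trans e4,
    show |a t2 - a t1| ≤ _ from (norm_snd_le _).trans e4]

end Vale.Agent.P354DR
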