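import Vale.Agent.P354DR.Nz
import Vale.Agent.P354RI.Ins
import Vale.Agent.P354XO.TameG
import Vale.Agent.P354CQ.Defs

/-!
The shift and the twist on families; the inverse of a chart which is close to a shear is tame.
-/

open scoped ContDiff
open Set Filter Topology Complex

noncomputable section

namespace Vale.Agent.P354DR

open Vale.Agent.P354XG hiding Dom Dom0 Bd bdSub domI Keeps Low dom0_mk dom0_zero dom0_cst dom_of
  dom_zero dom_cst bd_alg dom_sum dom0_sum keeps_pd keeps_zero keeps_sum bd_closure dom_pb_aff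
  bd_fn bd_par Conn gron gron0 dom_of_sys dom_sub_ev0
open Vale.Agent.P354MG Vale.Agent.P354XR
open Vale.Agent.P354XD hiding Sml
open Vale.Agent.P354RI (ex rs_ex pd_ex vf_ex ex_neg)
open Vale.Agent.P354XO (Sec VF LowG sec_of norm_le6)
open Vale.Agent.P354CQ (s6)

variable {W : Type}

section rg
variable (G : Filter (W × E6)) [Loc G]

/-- A family of functions of the radius. -/
def rg (f : W → ℝ → ℝ) : Sm G := gm G fun p => (f p.1 p.2.2.1 : ℂ)

/-- The phase exp (c i f). -/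
def ps (c : ℝ) (f : W → ℝ → ℝ) : Sm G := ex (algebraMap ℂ _ (c * I) * rg G f)

variable {G} {f : W → ℝ → ℝ} (h : ∀ᶠ p in G, ContDiff ℝ ∞ (f p.1))
include h

theorem rs_rg : Rs (rg G f) fun p => (f p.1 p.2.2.1 : ℂ) :=
  rs_gm (h.mono fun _ h => (ofRealCLM.contDiff.comp
    (h.comp (contDiff_fst.comp contDiff_snd))).contDiffAt)

theorem pd_rg (v : E6) : pd v (rg G f) = algebraMap ℂ _ v.2.1 * rg G fun w => deriv (f w) :=
  ((rs_rg h).pd v).ext ((rs_alg _).mul (rs_rg (f := fun w => deriv (f w))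
    (h.mono fun _ h => (contDiff_infty_iff_deriv.1 h).2))) (h.mono fun p h => by
      have : fderiv ℝ (sl (fun p : W × E6 => (f p.1 p.2.2.1 : ℂ)) p.1) p.2 = _ :=
        (ofRealCLM.hasFDerivAt.comp p.2 ((h.differentiable (by simp) _).hasDerivAt
          |>.comp_hasFDerivAt p.2 (hasFDerivAt_fst.comp p.2 hasFDerivAt_snd))).fderiv
      simp [pdF, this, mul_comm])

theorem vf_rg {X : P354XG.Der (Sm G)} (hX : VF X) :
    X (rg G f) = rg G (fun w => deriv (f w)) * X ((hp G).z 1) := by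
  have e : ∀ i, (hp G).d i (rg G f) = if i = 1 then rg G fun w => deriv (f w) else 0 := fun i => by
    rw [hp_d, pd_rg h, pd_rg h]
    fin_cases i <;> simp [d1, P354XD.d2, v1, v2]
  refine (DFunLike.congr_fun hX.eq_z _).trans (((P354RI.cz (hp G)).vf_ap _ _).trans ?_)
  simp [P354RI.cz, e, mul_comm]

theorem rs_ps (c : ℝ) : Rs (ps G c f) fun p => exp (c * I * f p.1 p.2.2.1) :=
  (rs_ex _).congr (((rs_alg _).mul (rs_rg h)).mono fun _ e => congrArg exp e)

end rg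

theorem s6_s6 (A B : ℝ → ℝ) (x : E6) : s6 (-A) (-B) (s6 A B x) = x := by
  simp [s6, ← mul_assoc, ← exp_add, neg_div]

theorem s6_s6' (A B : ℝ → ℝ) (x : E6) : s6 A B (s6 (-A) (-B) x) = x := by
  simpa using s6_s6 (-A) (-B) x

theorem s6_cd {A B : ℝ → ℝ} (hA : ContDiff ℝ ∞ A) (hB : ContDiff ℝ ∞ B) : ContDiff ℝ ∞ (s6 A B) := by
  have r : ContDiff ℝ ∞ fun x : E6 => x.2.1 := by fun_prop
  have b : ContDiff ℝ ∞ fun x : E6 => ((B x.2.1 / 2 : ℝ) : ℂ) :=
    ofRealCLM.contDiff.comp ((hB.comp r).div_const 2)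
  exact (contDiff_fst.add (hA.comp r)).prodMk (r.prodMk
    (((b.neg.mul contDiff_const).cexp.mul (by fun_prop)).prodMk
      ((b.mul contDiff_const).cexp.mul (by fun_prop))))

variable {F : Filter W} {K K' : W → Set E6} {A B : W → ℝ → ℝ}

/-- The family of the maps s6, and the images of the sets. -/
def s7 (A B : W → ℝ → ℝ) (p : W × E6) : E6 := s6 (A p.1) (B p.1) p.2
def im (A B : W → ℝ → ℝ) (K : W → Set E6) (w : W) : Set E6 := s6 (A w) (B w) '' K w

theorem ev_fst {P : W → Prop} (h : ∀ᶠ w in F, P w) : ∀ᶠ p in nb F K, P p.1 :=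
  ev_nb.2 (h.mono fun _ h _ _ => .of_forall fun _ => h)

section tw
variable (hA : ∀ᶠ w in F, ContDiff ℝ ∞ (A w)) (hB : ∀ᶠ w in F, ContDiff ℝ ∞ (B w))
include hA hB

theorem mp_s7 : Mp F K (im A B K) (s7 A B) :=
  ⟨(ev_fst (hA.and hB)).mono fun _ h => (s6_cd h.1 h.2).contDiffAt,
    .of_forall fun _ _ hx => mem_image_of_mem _ hx⟩

theorem sec_s7 : Sec (nb F (im A B K)) (nb F K) (s7 A B) (s7 (-A) (-B)) :=
  sec_of ⟨(ev_fst (hA.and hB)).mono fun _ h => (s6_cd h.1.neg h.2.neg).contDiffAt,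
    .of_forall fun _ _ ⟨x, hx, e⟩ => by rwa [← e, s7, Pi.neg_apply, Pi.neg_apply, s6_s6]⟩
    (mp_s7 hA hB).sm (.of_forall fun p => s6_s6' _ _ p.2)

theorem tws : Tws (hp (nb F K)) (fun i => (mp_s7 hA hB).co (zc i)) (rg _ A) (ps _ (1 / 2) B)
    (ps _ (-(1 / 2)) B) := by
  have r := fun i => rs_mk ((mp_s7 (K := K) hA hB).sm_co (zc i))
  have a := rs_rg (G := nb F K) (ev_fst hA)
  have b := rs_ps (G := nb F K) (ev_fst hB)
  refine ⟨(r 0).ext ((rs_z 0).add a) ?_, (r 1).ext (rs_z 1) .rfl, (r 2).ext ((b _).mul (rs_z 2)) ?_,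
    (r 3).ext ((b _).mul (rs_z 3)) ?_, (r 4).ext ((b _).mul (rs_z 4)) ?_,
    (r 5).ext ((b _).mul (rs_z 5)) ?_, ((b _).mul (b _)).ext rs_one ?_⟩ <;>
    refine .of_forall fun p => ?_ <;> simp [zc, s7, s6, ← exp_conj, ← exp_add, map_ofNat] <;>
    exact .inl (congrArg _ (by ring))

end tw

variable [Gr F] {μ ν : ℕ → W → ℝ}

theorem bd_ps (hB : ∀ᶠ w in F, ContDiff ℝ ∞ (B w)) (b : Bd (rg (nb F K) fun w => deriv (B w)))
    (c : ℝ) : Bd (ps (nb F K) c B) := by
  have m : ps (nb F K) c B ∈ Subring.closure ({ps (nb F K) c B} ∪ {a | Bd a}) :=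
    Subring.subset_closure (Or.inl rfl)
  refine bd_closure {ps (nb F K) c B} (finite_singleton _) (fun s hs => ?_) (fun s hs v => ?_) _ m
  · rw [mem_singleton_iff.1 hs]
    refine dom0_of wgt_one (rs_ps (ev_fst hB) c) 0 fun _ => ⟨1, zero_le_one,
      .of_forall fun w x _ => ?_⟩
    simp [norm_exp, w1]
  · rw [mem_singleton_iff.1 hs, ps, pd_ex, D_mul, D_alg, mul_zero, add_zero, pd_rg (ev_fst hB)]
    exact mul_mem m (Subring.subset_closure (Or.inr
      (Dom.bmul wgt_one (bd_alg _) (Dom.bmul wgt_one (bd_alg _) b))))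

theorem tame_s7 (hA : ∀ᶠ w in F, ContDiff ℝ ∞ (A w)) (hB : ∀ᶠ w in F, ContDiff ℝ ∞ (B w))
    (z : ∀ i, i ≠ 0 → Bd ((hp (nb F K)).z i)) (a : Bd (rg (nb F K) fun w => deriv (A w)))
    (b : Bd (rg (nb F K) fun w => deriv (B w))) : Tame (mp_s7 (K := K) hA hB) := fun ψ v => by
  have w := tws (K := K) hA hB
  have u := fun c i hi => (Dom.bmul wgt_one (bd_ps hB b c) (z i hi)).pd v
  refine (sec_s7 hA hB).bd_six (D := pd v) (fun i => ?_) ψ
  show Bd (pd v ((mp_s7 hA hB).co (zc i)))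
  fin_cases i
  · refine w.y0 ▸ ?_
    rw [D_add, pd_rg (ev_fst hA), P354XO.z_lin, P354XO.pd_lin]
    exact Dom.add wgt_one (bd_alg _) (Dom.bmul wgt_one (bd_alg _) a)
  exacts [w.y1 ▸ (z 1 (by decide)).pd v, w.y2 ▸ u _ 2 (by decide), w.y3 ▸ u _ 3 (by decide),
    w.y4 ▸ u _ 4 (by decide), w.y5 ▸ u _ 5 (by decide)]

/-- A map which is close to a shear. -/
theorem low_shear {G2 : Filter (W × E6)} {a b : W × E6 → E6} (h : Sec G2 (nb F K) a b)
    {η : Sm (nb F K)} (hη : Dom0 (w1 W) η) (s : Sml F ν) (e : ∀ v i, Dom0 ν (pd v (h.cmp (zc i)) -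
      algebraMap ℂ _ (zc i v) - algebraMap ℂ _ (if i = 0 then v.2.1 else 0) * η)) : LowG F K a := by
  have r : ∀ v i, ∀ᶠ p in nb F K, rep (pd v (h.cmp (zc i)) - algebraMap ℂ _ (zc i v) -
      algebraMap ℂ _ (if i = 0 then v.2.1 else 0) * η) p = zc i (fderiv ℝ (fun y => a (p.1, y))
        p.2 v) - zc i v - (if i = 0 then (v.2.1 : ℂ) else 0) * rep η p := fun v i =>
    ((((rs_mk _).pd v).sub (rs_alg _)).sub ((rs_alg _).mul (rs_rep η))).congr
      (h.sa.mono fun p k => by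
        have : fderiv ℝ (sl (fun p => zc i (a p)) p.1) p.2 = _ :=
          ((zc i).hasFDerivAt.comp p.2 (k.differentiableAt (by simp)).hasFDerivAt).fderiv
        simp only [pdF, this, ContinuousLinearMap.comp_apply])
  have key : ∀ v, ∀ᶠ k in atTop, ∀ θ, ∀ d > 0, ∀ᶠ w in Gr.ph F k θ, ∀ x ∈ K w,
      ‖fderiv ℝ (fun y => a (w, y)) x v - v - (v.2.1 * (rep η (w, x)).re, 0)‖ ≤ d := fun v => by
    filter_upwards [eventually_all.2 fun i => (e v i).ev_lt' s,
      evk (ev_nb_on (eventually_all.2 (r v)))] with k h1 h2 θ d hd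
    filter_upwards [eventually_all.2 fun i => h1 i θ d hd, h2 θ] with w h1 h2 x hx
    have g := fun i => (abs_re_le_norm _).trans (h2 x hx i ▸ (h1 i x hx).le)
    have g' := fun i => h2 x hx i ▸ (h1 i x hx).le
    exact max_le (by simpa [zc] using g 0) (max_le (by simpa [zc] using g 1)
      (max_le (by simpa [zc] using g' 2) (by simpa [zc] using g' 3)))
  filter_upwards [hη, eventually_all.2 fun i => key (v1 i), eventually_all.2 fun i => key (v2 i)]
    with k h0 h1 h2 θ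
  obtain ⟨C, hC, h0⟩ := h0 θ
  have d0 : 0 < 1 / (12 * (1 + C)) := by positivity
  refine ⟨1 / (2 * (1 + C)), by positivity, ?_⟩
  filter_upwards [h0, eventually_all.2 fun i => h1 i θ _ d0, eventually_all.2 fun i => h2 i θ _ d0]
    with w h0 h1 h2 x hx u
  let T : E6 →L[ℝ] E6 := fderiv ℝ (fun y => a (w, y)) x - .id ℝ _ - (rep η (w, x)).re •
    (ContinuousLinearMap.inl ℝ ℝ _).comp ((ContinuousLinearMap.fst ℝ ℝ _).comp (.snd ℝ ℝ _))
  have eT : ∀ v, T v = fderiv ℝ (fun y => a (w, y)) x v - v - (v.2.1 * (rep η (w, x)).re, 0) :=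
    fun v => by simp [T, mul_comm]
  have n := (T.le_opNorm u).trans (mul_le_mul_of_nonneg_right (norm_le6
    (fun i => eT _ ▸ h1 i x hx) fun i => eT _ ▸ h2 i x hx) (norm_nonneg _))
  have c : |(rep η (w, x)).re| ≤ C := (abs_re_le_norm _).trans (by simpa [w1] using h0 x hx)
  rw [eT] at n
  generalize fderiv ℝ (fun y => a (w, y)) x u = D at n ⊢
  have n1 : |D.1 - u.1 - u.2.1 * (rep η (w, x)).re| ≤ _ := (norm_fst_le _).trans n
  have n2 : ‖D.2 - u.2 - 0‖ ≤ _ := (norm_snd_le _).trans n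
  have n3 : ‖u.2‖ ≤ ‖D‖ + 6 * (1 / (12 * (1 + C))) * ‖u‖ := by
    rw [sub_zero, norm_sub_rev] at n2
    linarith [norm_snd_le D, norm_sub_norm_le u.2 D.2]
  have n4 : |u.2.1 * (rep η (w, x)).re| ≤ ‖u.2‖ * C := by
    rw [abs_mul]; exact mul_le_mul (norm_fst_le u.2) c (abs_nonneg _) (norm_nonneg _)
  have n5 : ‖u‖ ≤ (1 + C) * (‖D‖ + 6 * (1 / (12 * (1 + C))) * ‖u‖) := by
    have := abs_le.1 n1
    have := abs_le.1 n4
    have := abs_le.1 (show |D.1| ≤ ‖D‖ from norm_fst_le D)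
    have := mul_le_mul_of_nonneg_right n3 hC
    have := mul_nonneg hC ((norm_nonneg _).trans n3)
    exact max_le (abs_le.2 ⟨by linarith, by linarith⟩) (by linarith)
  rw [show (1 + C) * (‖D‖ + 6 * (1 / (12 * (1 + C))) * ‖u‖) = (1 + C) * ‖D‖ + ‖u‖ / 2 by
    field_simp; ring] at n5
  rw [one_div, inv_mul_le_iff₀ (by positivity)]
  linarith

end Vale.Agent.P354DR
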