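import Vale.Agent.P354DR.Cht
import Vale.Agent.P354DR.Avg

/-!
Constants which do not depend on the solution.
-/

open Set Filter Topology Asymptotics Complex

namespace Vale.Agent.P354DR

open Vale.Agent.P354XG Vale.Agent.P354XF Vale.Agent.P354XR Vale.Agent.P354XD Vale.Agent.P354XI
open Vale.Agent.P354Z (An)

/-- The classes which are given by the values at points. -/
noncomputable def Cl.of {A P : Type*} [CommRing A] [Algebra ℂ A] (φ : A →ₐ[ℂ] (P → ℂ))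
    (F : Filter P) (η : P → ℝ) (h : Tendsto η F (𝓝 0)) : Cl A where
  B :=
    { carrier := {u | φ u =O[F] fun _ => (1 : ℝ)}
      mul_mem' := fun a b => (IsBigO.mul a b).congr (by simp) (by simp)
      add_mem' := fun a b => (IsBigO.add a b).congr_left (by simp)
      algebraMap_mem' := fun z =>
        (isBigO_const_const z (one_ne_zero (α := ℝ)) F).congr_left (by simp) }
  I :=
    { carrier := {u | φ u =O[F] η}
      add_mem' := fun a b => (IsBigO.add a b).congr_left (by simp)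
      zero_mem' := (isBigO_zero η F).congr_left (by simp)
      neg_mem' := fun a => (IsBigO.neg_left a).congr_left (by simp) }
  J :=
    { carrier := {u | φ u =O[F] fun p => η p ^ 2}
      add_mem' := fun a b => (IsBigO.add a b).congr_left (by simp)
      zero_mem' := (isBigO_zero _ F).congr_left (by simp)
      neg_mem' := fun a => (IsBigO.neg_left a).congr_left (by simp) }
  le _ a := IsBigO.trans a (h.isBigO_one ℝ)
  mul _ b _ a := (IsBigO.mul b a).congr (by simp) (by simp)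
  mul2 _ b _ a := (IsBigO.mul b a).congr (by simp) (by simp)
  sq _ a _ b := (IsBigO.mul a b).congr (by simp) (by simp [pow_two])
  inv a ha u e := by
    have t : Tendsto (fun p => (1 + φ a p)⁻¹) F (𝓝 (1 + 0)⁻¹) :=
      (tendsto_const_nhds.add (IsBigO.trans_tendsto ha h)).inv₀ (by simp)
    refine (t.isBigO_one ℝ).congr_left fun p => ?_
    have := congrFun (congrArg φ e) p
    simp only [map_mul, map_add, map_one, Pi.mul_apply, Pi.add_apply, Pi.one_apply] at this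
    exact (eq_inv_of_mul_eq_one_right this).symm

theorem cub {u v i : ℂ} (e : i * v = 1) (h : |u.im| ≤ u.re) (h' : |v.im| ≤ v.re) :
    ‖u - v‖ ≤ 2 * ‖i ^ 2 * (u ^ 3 - v ^ 3)‖ := by
  have v0 : v ≠ 0 := right_ne_zero_of_mul_eq_one e
  obtain ⟨s, rfl⟩ : ∃ s, u = s * v := ⟨u * i, by rw [mul_assoc, e, mul_one]⟩
  have p : 0 ≤ s.re := by
    have k : s.re * normSq v = (s * v).re * v.re + (s * v).im * v.im := by
      simp only [normSq_apply, mul_re, mul_im]; ring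
    have := abs_le.1 h
    have := abs_le.1 h'
    have : 0 ≤ s.re * normSq v := by rw [k]; nlinarith
    exact nonneg_of_mul_nonneg_left this (normSq_pos.2 v0)
  have q : 1 ≤ 2 * ‖s ^ 2 + s + 1‖ := by
    have : ‖s ^ 2 + s + 1‖ ^ 2 = (s.re ^ 2 - s.im ^ 2 + s.re + 1) ^ 2 +
        (2 * s.re + 1) ^ 2 * s.im ^ 2 := by
      rw [← normSq_eq_norm_sq]
      simp only [normSq_apply, pow_two, add_re, add_im, mul_re, mul_im, one_re, one_im]
      ring
    by_contra c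
    have c1 : ‖s ^ 2 + s + 1‖ ^ 2 < 1 / 4 := by nlinarith [norm_nonneg (s ^ 2 + s + 1)]
    have c2 : s.im ^ 2 ≤ (2 * s.re + 1) ^ 2 * s.im ^ 2 :=
      le_mul_of_one_le_left (sq_nonneg _) (by nlinarith)
    have c3 : 1 / 2 ≤ s.re ^ 2 - s.im ^ 2 + s.re + 1 := by
      nlinarith [sq_nonneg (s.re ^ 2 - s.im ^ 2 + s.re + 1)]
    nlinarith [mul_nonneg (sq_nonneg (2 * s.re + 1)) (sq_nonneg s.im)]
  rw [show i ^ 2 * ((s * v) ^ 3 - v ^ 3) = (s ^ 2 + s + 1) * (s * v - v) by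
    linear_combination (s ^ 3 - 1) * v * (i * v + 1) * e, norm_mul, ← mul_assoc]
  exact le_mul_of_one_le_left (norm_nonneg _) q

/-- The value at a point. -/
noncomputable def evA {O : Set E6} (x : O) : Sm (on O) →ₐ[ℂ] ℂ :=
  { evO x with commutes' := fun z => fv_alg z x.2 }

theorem val_k {A : Type*} [CommRing A] [Algebra ℂ A] {k : KC A} (h : k.Is) (φ : A →ₐ[ℂ] ℂ)
    (c : ∀ f, φ (k.c f) = starRingEnd ℂ (φ f)) {r a : ℝ} (hr : 0 < r) (e : φ k.r = r)
    (ea : φ k.a = a) : ∃ y s : ℝ, |y| ≤ 1 ∧ 0 < s ∧ s ≤ (r * r)⁻¹ ∧ s * (r * r + a * a * y * y) = 1 ∧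
      φ k.sg = s ∧ φ k.z = s * (r + I * a * y) := by
  have x : φ k.x = (φ k.x).re := (conj_eq_iff_re.1 (by rw [← c, h.c_x])).symm
  have hs := congrArg φ h.hs
  have hg := congrArg φ h.hg
  rw [map_mul, ← h.c_s, c, mul_conj, map_sub, map_one, map_mul, x] at hs
  simp only [map_mul, map_add, map_one, e, ea] at hg
  rw [x] at hg
  generalize (φ k.x).re = y at *
  have p : 0 < r * r + a * a * y * y := by nlinarith [mul_self_nonneg (a * y), mul_pos hr hr]
  have s : φ k.sg = ((r * r + a * a * y * y)⁻¹ : ℝ) := by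
    rw [eq_inv_of_mul_eq_one_left hg]; norm_cast
  refine ⟨y, _, ?_, inv_pos.2 p, inv_anti₀ (mul_pos hr hr) (by nlinarith [mul_self_nonneg (a * y)]),
    inv_mul_cancel₀ p.ne', s, ?_⟩
  · have : normSq (φ k.s) = 1 - y * y := by exact_mod_cast hs
    exact abs_le_one_iff_mul_self_le_one.2 (by linarith [normSq_nonneg (φ k.s)])
  · simp only [KC.z, map_mul, map_add, s, e, ea, x, ii, AlgHom.commutes]
    rfl

/-- The cube root of twice the mass. -/
noncomputable def cr (M : ℝ) : ℝ := (2 * M) ^ ((3 : ℕ)⁻¹ : ℝ)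

theorem cr_pow {M : ℝ} (h : 0 < M) : cr M ^ 3 = 2 * M :=
  Real.rpow_inv_natCast_pow (by positivity) (by decide)
theorem cr_pos {M : ℝ} (h : 0 < M) : 0 < cr M := Real.rpow_pos_of_pos (by positivity) _
theorem cr_cont : Continuous cr :=
  (continuous_const.mul continuous_id).rpow_const fun _ => .inr (by positivity)

/-- The data near one sphere. -/
structure Ix (r : ℝ) where
  O : Set E6
  T : Tv (Sm (on O))
  p : Pm (Sm (on O))
  b : M6 (Sm (on O))
  w : Sm (on O)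
  t : ℝ
  M : ℝ
  a : ℝ
  η : ℝ
  op : IsOpen O
  off : Off (on O)
  is : p.Is (hp _)
  pM : p.M = algebraMap ℂ _ M
  pa : p.a = algebraMap ℂ _ a
  fit : Fit (kk (hp _) p) T.G (em (hp _) p T.G) b
  hw : w ^ 3 = -T.G.P2
  sph : Sph O t r
  M0 : 0 < M
  ar : |a| ≤ r
  bd : ∀ ξ, An (t, r, ξ) → ∀ i, ‖fv (dd (hp _) p T.G i) (t, r, ξ)‖ ≤ η ∧
    ‖fv (Om (hp _) 2 (dd (hp _) p T.G i)) (t, r, ξ)‖ ≤ η
  wv : ∀ ξ, An (t, r, ξ) → |(fv w (t, r, ξ)).im| ≤ (fv w (t, r, ξ)).re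

namespace Ix
variable {r : ℝ} (M0 a0 : ℝ)

abbrev Pt (r : ℝ) : Type := Σ j : Ix r, {ξ : ℂ × ℂ // An (j.t, r, ξ)}
abbrev Rg (r : ℝ) : Type := ∀ j : Ix r, Sm (on j.O)

noncomputable def ev (q : Pt r) : Rg r →ₐ[ℂ] ℂ :=
  (evA ⟨_, q.1.sph _ q.2.2⟩).comp (Pi.evalAlgHom ℂ (fun j : Ix r => Sm (on j.O)) q.1)

theorem ev_ap (q : Pt r) (u : Rg r) : ev q u = fv (u q.1) (q.1.t, r, q.2) := rfl

def F0 (r : ℝ) : Filter (Ix r) := comap (fun j => (j.η, j.M, j.a)) (𝓝 (0, M0, a0))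

theorem tend : Tendsto (fun q : Pt r => (q.1.η, q.1.M, q.1.a)) (comap Sigma.fst (F0 M0 a0 r))
    (𝓝 (0, M0, a0)) := tendsto_comap.comp tendsto_comap

noncomputable def cl (r : ℝ) : Cl (Rg r) :=
  Cl.of (AlgHom.pi ev) (comap Sigma.fst (F0 M0 a0 r)) (fun q => q.1.η)
    (continuous_fst.continuousAt.tendsto.comp (tend M0 a0))

noncomputable def K (r : ℝ) : Hp (Rg r) := piK fun j => hp (on j.O)
noncomputable def k (r : ℝ) : KC (Rg r) := kk (K r) (piP fun j => j.p)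
noncomputable def tv (r : ℝ) : Tv (Rg r) := piT fun j => j.T

/-- Functions of the mass. -/
noncomputable def cs (g : ℝ → ℝ) : Rg r := fun j => algebraMap ℂ _ (g j.M)

theorem K_is : (K r).Is := piK_is fun j => hp_is j.off

theorem fitU : Fit (k r) (tv r).G (em (K r) (piP fun j => j.p) (tv r).G) (piM fun j => j.b) :=
  (em_pi fun j : Ix r => j.T.G) ▸ fit_pi (fun j => hp_is j.off) (fun j => j.is) fun j => j.fit

variable {M0 a0}

theorem memB {u : Rg r} (C : ℝ) (h : ∀ q, ‖ev q u‖ ≤ C) : u ∈ (cl M0 a0 r).B :=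
  IsBigO.of_bound C (Eventually.of_forall fun q => by simpa using h q)

theorem memI {u : Rg r} (h : ∀ q, ‖ev q u‖ ≤ q.1.η) : u ∈ (cl M0 a0 r).I :=
  IsBigO.of_bound 1 (Eventually.of_forall fun q => by
    simpa using (h q).trans (le_abs_self _))

theorem ev_cs (q : Pt r) (g : ℝ → ℝ) : ev q (cs g) = g q.1.M := fv_alg _ (q.1.sph _ q.2.2)

theorem cs_mem {g : ℝ → ℝ} (h : ContinuousAt g M0) : cs g ∈ (cl M0 a0 r).B :=
  ((continuous_ofReal.continuousAt.tendsto.comp (h.tendsto.comp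
    (continuous_snd.fst.continuousAt.tendsto.comp (tend M0 a0)))).isBigO_one ℝ).congr_left
    fun q => (ev_cs q g).symm

theorem ev_z (q : Pt r) (i : Fin 6) : ev q ((K r).z i) = zc i (q.1.t, r, q.2) :=
  (fv_in _ (q.1.sph _ q.2.2)).trans (ev_on (rs_z i) (q.1.sph _ q.2.2))

theorem ev_a (q : Pt r) : ev q (k r).a = q.1.a :=
  (congrArg (fv · _) q.1.pa).trans (fv_alg _ (q.1.sph _ q.2.2))

theorem val (hr : 0 < r) (q : Pt r) : ∃ y s : ℝ, |y| ≤ 1 ∧ 0 < s ∧ s ≤ (r * r)⁻¹ ∧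
    s * (r * r + q.1.a * q.1.a * y * y) = 1 ∧ ev q (k r).sg = s ∧
    ev q (k r).z = s * (r + I * q.1.a * y) :=
  val_k fitU.is (ev q) (fun _ => fv_cj _ _) hr (ev_z q 1) (ev_a q)

theorem k_M : (k r).M = cs id := funext fun j => j.pM

theorem near (hM : 0 < M0) (hr : 0 < r) :
    Near (cl M0 a0 r) (k r) (tv r).G (em (K r) (piP fun j => j.p) (tv r).G) := by
  have z : ∀ i, 2 ≤ i → (K r).z i ∈ (cl M0 a0 r).B := fun i hi => memB 2 fun q => by
    have := An.le q.2.2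
    rw [ev_z]
    fin_cases i <;> simp [zc] at hi ⊢
    exacts [this.1, this.2, this.1, this.2]
  have z2 := z 2 (by decide)
  have z3 := z 3 (by decide)
  have z4 := z 4 (by decide)
  have z5 := z 5 (by decide)
  have ni : (K r).Ni ∈ (cl M0 a0 r).B := memB 2 fun q => by
    rw [show ev q (K r).Ni = _ from (fv_in _ (q.1.sph _ q.2.2)).trans
      (ev_on (rs_Ni q.1.off) (q.1.sph _ q.2.2)), norm_inv, Complex.norm_of_nonneg (by linarith [q.2.2.1])]
    exact inv_le_of_inv_le₀ two_pos (by linarith [q.2.2.1])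
  have d0 : ∀ i, dd (K r) (piP fun j => j.p) (tv r).G i ∈ (cl M0 a0 r).I := fun i =>
    memI fun q => by
      rw [ev_ap, show dd (K r) _ (tv r).G i q.1 = _ from dd_pi _ i q.1]
      exact (q.1.bd _ q.2.2 i).1
  have d1 : ∀ i, (k r).F2 (dd (K r) (piP fun j => j.p) (tv r).G i) ∈ (cl M0 a0 r).I := fun i => by
    rw [k, kk_F2, F2_Om K_is]
    refine (cl M0 a0 r).mul _ (ofNat_mem _ 2) _ (memI fun q => ?_)
    rw [ev_ap, show ∀ f, Om (K r) 2 f q.1 = Om (hp _) 2 (f q.1) from fun _ => rfl,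
      show dd (K r) _ (tv r).G i q.1 = _ from dd_pi _ i q.1]
    exact (q.1.bd _ q.2.2 i).2
  refine ⟨memB r fun q => ?_, mul_mem (sub_mem (mul_mem z2 z4) (mul_mem z3 z5)) ni,
    mul_mem (mul_mem (mul_mem (ofNat_mem _ 2) z2) z3) ni,
    mul_mem (mul_mem (mul_mem (ofNat_mem _ 2) z4) z5) ni,
    add_mem (mul_mem z2 z4) (mul_mem z3 z5), ni, memB (r * r)⁻¹ fun q => ?_, ?_,
    k_M ▸ cs_mem continuousAt_id, ⟨cs fun M => M⁻¹, cs_mem (continuousAt_inv₀ hM.ne'), ?_⟩,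
    fun a μ => ?_, fun a μ => ?_, fun i => d0 (.inr i), fun i => d1 (.inr i)⟩
  · exact (congrArg norm (ev_z q 1)).trans_le (Complex.norm_of_nonneg hr.le).le
  · obtain ⟨y, s, -, h1, h2, -, e, -⟩ := val hr q
    rwa [e, Complex.norm_of_nonneg h1.le]
  · exact ((continuous_ofReal.continuousAt.tendsto.comp
      (continuous_snd.snd.continuousAt.tendsto.comp (tend M0 a0))).isBigO_one ℝ).congr_left
      fun q => (ev_a q).symm
  · rw [k_M]
    funext j
    simp only [cs, Pi.mul_apply, ← map_mul, ← ofReal_mul, id, mul_inv_cancel₀ j.M0.ne', ofReal_one,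
      map_one, Pi.one_apply]
  · rcases em_sub K_is (piP fun j => j.p) (tv r).G a μ with e | ⟨i, e⟩ <;> rw [k, e]
    exacts [zero_mem _, d0 i]
  · rcases em_sub K_is (piP fun j => j.p) (tv r).G a μ with e | ⟨i, e⟩ <;> rw [k, e]
    exacts [by rw [D_zero]; exact zero_mem _, d1 i]

theorem w_mem (hM : 0 < M0) (hr : 0 < r) :
    (fun j => j.w) - cs cr * (k r).z ∈ (cl M0 a0 r).I := by
  have n := near (a0 := a0) hM hr
  have e1 : (cs (fun M => (cr M)⁻¹) : Rg r) * cs cr = 1 := funext fun j => by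
    simp only [cs, Pi.mul_apply, ← map_mul, ← ofReal_mul, inv_mul_cancel₀ (cr_pos j.M0).ne',
      ofReal_one, map_one, Pi.one_apply]
  have e2 : (cs cr : Rg r) ^ 3 = 2 * (k r).M := k_M ▸ funext fun j => by
    simp only [cs, Pi.mul_apply, Pi.pow_apply, ← map_pow, ← ofReal_pow, cr_pow j.M0, id,
      ofReal_mul, map_mul, ofReal_ofNat, map_ofNat, Pi.ofNat_apply]
  have e3 : (fun j : Ix r => j.w) ^ 3 = -(tv r).G.P2 := funext fun j => j.hw
  have e4 : cs (fun M => (cr M)⁻¹) * Kr.y (k r) * (cs cr * (k r).z) = 1 := by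
    linear_combination (k r).z * Kr.y (k r) * e1 + Kr.zy fitU.is
  have m : (cs (fun M => (cr M)⁻¹) * Kr.y (k r)) ^ 2 *
      ((fun j : Ix r => j.w) ^ 3 - (cs cr * (k r).z) ^ 3) ∈ (cl M0 a0 r).I := by
    refine Cl.mul _ _ (pow_mem (mul_mem (cs_mem (cr_cont.continuousAt.inv₀ (cr_pos hM).ne'))
      (sub_mem n.r (mul_mem (mul_mem (algebraMap_mem _ _) n.a) n.x))) 2) _ ?_
    rw [e3, mul_pow, e2, show -(tv r).G.P2 - 2 * (k r).M * (k r).z ^ 3 =
      -((tv r).G.P2 - (k r).P2) by rw [KC.P2]; ring]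
    exact neg_mem (n.s0 10)
  refine IsBigO.trans (IsBigO.of_bound 2 (Eventually.of_forall fun q => ?_)) m
  obtain ⟨y, s, h0, h1, -, -, -, e⟩ := val hr q
  have := cub (u := ev q fun j => j.w) (v := ev q (cs cr * (k r).z))
    (by rw [← map_mul, e4, map_one]) (q.1.wv _ q.2.2) (by
      have p := (mul_pos (cr_pos q.1.M0) h1).le
      rw [map_mul, ev_cs, e, ← mul_assoc, ← ofReal_mul, im_ofReal_mul, re_ofReal_mul, abs_mul,
        abs_of_nonneg p]
      refine mul_le_mul_of_nonneg_left ?_ p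
      simpa [abs_mul] using (mul_le_of_le_one_right (abs_nonneg _) h0).trans q.1.ar)
  rwa [← map_pow, ← map_pow, ← map_pow, ← map_sub, ← map_sub, ← map_mul] at this

theorem ex {u : Rg r} {g : Ix r → ℝ}
    (h : AlgHom.pi ev u =O[comap Sigma.fst (F0 M0 a0 r)] fun q : Pt r => g q.1) :
    ∃ C, ∀ᶠ j in F0 M0 a0 r, ∀ C', C ≤ C' → ∀ ξ, An (j.t, r, ξ) →
      ‖fv (u j) (j.t, r, ξ)‖ ≤ C' * |g j| := by
  obtain ⟨C, h⟩ := h.bound
  exact ⟨C, (eventually_comap.1 h).mono fun j e C' c ξ a =>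
    (e ⟨j, ξ, a⟩ rfl).trans (mul_le_mul_of_nonneg_right c (abs_nonneg _))⟩

/-- The means of the two densities and of their time derivatives. -/
theorem uni (hM : 0 < M0) (hr : 0 < r) : ∃ C, ∀ᶠ j in F0 M0 a0 r,
    ‖av (q1 j.b j.w) r j.t - (cr j.M ^ 2 : ℝ)‖ ≤ C * |j.η| ∧
    ‖av (q2 (kk (hp _) j.p) j.T.G j.b) r j.t - (-(2 * j.a * j.M) : ℝ)‖ ≤ C * |j.η| ∧
    ‖av ((hp _).d 0 (q1 j.b j.w)) r j.t‖ ≤ C * j.η ^ 2 ∧
    ‖av ((hp _).d 0 (q2 (kk (hp _) j.p) j.T.G j.b)) r j.t‖ ≤ C * j.η ^ 2 := by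
  have n := near (a0 := a0) hM hr
  obtain ⟨⟨u1, v1, h1⟩, u2, h2⟩ := drift1 fitU n (w := fun j => j.w) (funext fun j => j.hw)
    (cs_mem cr_cont.continuousAt) (funext fun j => D_alg ((hp (on j.O)).P) _) (w_mem hM hr)
  obtain ⟨⟨u3, v3, h3⟩, u4, h4⟩ := drift2 fitU n
  obtain ⟨C1, h1⟩ := ex (g := fun j => j.η ^ 2) h1
  obtain ⟨C2, h2⟩ := ex (g := fun j => j.η) h2
  obtain ⟨C3, h3⟩ := ex (g := fun j => j.η ^ 2) h3
  obtain ⟨C4, h4⟩ := ex (g := fun j => j.η) h4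
  refine ⟨max (max C1 C2) (max C3 C4), ?_⟩
  filter_upwards [h1, h2, h3, h4] with j h1 h2 h3 h4
  have H := fun f c u v C =>
    av_le (f := f) (c := c) (u := u) (v := v) (C := C) j.op (hp_is j.off) j.sph
  refine ⟨H _ _ (u2 j) 0 _ fun ξ a => (le_of_eq ?_).trans (h2 _ (by simp) ξ a),
    H _ _ (u4 j) 0 _ fun ξ a => (le_of_eq ?_).trans (h4 _ (by simp) ξ a), ?_, ?_⟩
  · rw [D_zero, sub_zero, ofReal_pow, map_pow]; rfl
  · rw [D_zero, sub_zero, ofReal_neg, map_neg, sub_neg_eq_add, ofReal_mul, ofReal_mul, map_mul,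
      map_mul, ← j.pa, ← j.pM, ofReal_ofNat, map_ofNat]
    rfl
  · rw [← sub_zero (av _ _ _), ← abs_sq]
    refine H _ _ (u1 j) (v1 j) _ fun ξ a => (le_of_eq ?_).trans (h1 _ (by simp) ξ a)
    rw [map_zero, sub_zero]; rfl
  · rw [← sub_zero (av _ _ _), ← abs_sq]
    refine H _ _ (u3 j) (v3 j) _ fun ξ a => (le_of_eq ?_).trans (h3 _ (by simp) ξ a)
    rw [map_zero, sub_zero]; rfl

end Ix

end Vale.Agent.P354DR
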